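import Mathlib.Computability.TuringMachine.Computable
import Mathlib.Probability.UniformOn
import Mathlib.MeasureTheory.Measure.Real
import Mathlib.Combinatorics.SimpleGraph.Matching
import Mathlib.Analysis.SpecialFunctions.Log.Base

/-!
Randomised approximation schemes as polynomial time Turing machines with a random word; Holant
sums on regular multigraphs, the eight-vertex model.
-/

namespace Vale.Agent.N308H

open Finset ProbabilityTheory
open scoped NNRat

/-- The word `w₁ # w₂ # ⋯ wₖ #` over the alphabet `0, 1, #`; the letter `#` is `none`. -/
def tape (l : List (List Bool)) : List (Option Bool) := l.flatMap fun w => w.map some ++ [none]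

/-- A nonnegative rational number: numerator and denominator in binary. -/
def frac (q : ℚ≥0) : List (List Bool) := [q.num.bits, q.den.bits]

/-- The quantity `Z x`, for instances `x` given by the words `cd x`, has a fully polynomial
randomised approximation scheme. A deterministic polynomial time Turing machine reads a word `r` of
coins, `ε`, `δ` and the instance, and writes a rational number. If `r` is uniformly random, of a
length `T` that is polynomial in the size of the instance, `1 / ε` and `log (1 / δ)`, then with
probability at least `1 - δ` this number is within the factor `1 ± ε` of `Z x`. -/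
def FPRAS {ι : Type} (cd : ι → List (List Bool)) (Z : ι → ℝ) : Prop :=
  ∃ (f : List (List Bool) → ℚ≥0)
    (M : Turing.TM2ComputableInPolyTime tape (fun q => tape (frac q)) f) (d : ℕ),
    (∀ k, Finite (M.tm.Γ k)) ∧ ∀ (x : ι) (ε δ : ℚ≥0), 0 < ε → ε < 1 → 0 < δ → δ < 1 / 2 → ∀ T : ℕ,
      ((tape (cd x)).length + 1 / (ε : ℝ) + Real.logb 2 (1 / (δ : ℝ))) ^ d ≤ T →
      1 - (δ : ℝ) ≤ (uniformOn (Set.univ : Set (Fin T → Bool))).real
        {r | (1 - ε : ℝ) * Z x ≤ f (List.ofFn r :: (frac ε ++ frac δ ++ cd x)) ∧
          (f (List.ofFn r :: (frac ε ++ frac δ ++ cd x)) : ℝ) ≤ (1 + ε) * Z x}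

open Classical in
/-- The rows of the adjacency matrix. -/
noncomputable def rows {n : ℕ} (G : SimpleGraph (Fin n)) : List (List Bool) :=
  List.ofFn fun i => List.ofFn fun j => decide (G.Adj i j)

/-- A `k`-regular multigraph on `m` vertices: every vertex has `k` numbered legs (half edges), and
`e` joins the legs in pairs. -/
structure Reg (k : ℕ) where
  m : ℕ
  e : Fin m × Fin k → Fin m × Fin k
  inv : ∀ h, e (e h) = h
  ne : ∀ h, e h ≠ h

/-- For every vertex `v` and leg `i`, the number of the leg which is joined to `(v, i)`. -/
def Reg.code {k : ℕ} (G : Reg k) : List (List Bool) :=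
  (List.finRange G.m).flatMap fun v =>
    List.ofFn fun i => (k * (G.e (v, i)).1 + (G.e (v, i)).2 : ℕ).bits

/-- The Holant sum: the sum, over the states `x` of all legs such that the two legs of every edge
have equal states (`o = false`: sets of edges) or opposite states (`o = true`: orientations), of
the product over the vertices `v` of the weights `w v` of the states of the legs at `v`. -/
noncomputable def Reg.hol {k : ℕ} (G : Reg k) (o : Bool)
    (w : Fin G.m → (Fin k → Bool) → ℚ≥0) : ℝ :=
  ∑ x : Fin G.m × Fin k → Bool with ∀ h, x (G.e h) = xor (x h) o, ∏ v, (w v fun i => x (v, i) : ℝ)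

/-- The tables of weights, vertex by vertex. -/
def tables {k n : ℕ} (w : Fin n → (Fin k → Bool) → ℚ≥0) : List (List Bool) :=
  (List.finRange n).flatMap fun v =>
    (List.range (2 ^ k)).flatMap fun a => frac (w v fun i => a.testBit i)

/-- Every product of the weights of two complementary states is at most the sum of all the other
such products (the sum over `y` counts every product twice). -/
def Balanced {k : ℕ} (w : (Fin k → Bool) → ℚ≥0) : Prop :=
  ∀ x, 4 * (w x * w fun i => !x i) ≤ ∑ y, w y * w fun i => !y i

/-- The table vanishes on all states with an odd number of `true`, or on all states with an even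
number of `true`. -/
def Parity {k : ℕ} (w : (Fin k → Bool) → ℚ≥0) : Prop :=
  (∀ x, Odd #{i | x i} → w x = 0) ∨ ∀ x, Even #{i | x i} → w x = 0

/-- The weights of the eight-vertex model (`x i` says that the arrow on leg `i` points inwards):
`d` for a sink or a source, `a`, `b`, `c` if leg `0` agrees with leg `1`, `3`, `2` only. -/
def eight (a b c d : ℚ≥0) (x : Fin 4 → Bool) : ℚ≥0 :=
  if Odd #{i | x i} then 0 else
    if x 0 = x 1 then (if x 0 = x 2 then d else a) else if x 0 = x 2 then c else b

end Vale.Agent.N308H
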