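import Vale.Agent.N308H.Hol

/-!
The approximation schemes: perfect matchings, Holant sums of arity four and three, the
eight-vertex model.
-/

namespace Vale.Agent.N308H

open Finset Vale.Agent.Lib.PTM Vale.Agent.Lib.PolyTime Vale.Agent.P308 Vale.Agent.P308.Poly
open Vale.Agent.N308S
open scoped NNRat

theorem getD_raw (l : List (List Bool)) (i : ℕ) : ((raw l).getD i ⟨[]⟩).w = l[i]?.getD [] := by
  rw [raw, List.getD_eq_getElem?_getD, List.getElem?_map]
  cases l[i]? <;> rfl

theorem nat_of {l : List (List Bool)} {i a : ℕ} (h : l[i]? = some a.bits) : nat (raw l) i = a := by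
  rw [nat, getD_raw, h, Option.getD_some, val_bits]

theorem length_raw (l : List (List Bool)) : (raw l).length = l.length := List.length_map _

theorem pu_len : PU fun y : List Raw => y.length := ⟨PT.id.length, PBd.length (A := ∅) PT.id⟩

theorem pu_div (a c : ℕ) : PU fun y : List Raw => (y.length - a) / c :=
  ⟨(pu_len.pt.sub (PT.const a)).div (PT.const c),
    pu_len.bd.mono fun _ => (Nat.div_le_self _ _).trans (Nat.sub_le _ _)⟩

theorem fpras_graph : FPRAS (fun G : (n : ℕ) × SimpleGraph (Fin n) => rows G.2)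
    fun G => Nat.card {M : G.2.Subgraph // M.IsPerfectMatching} := by
  classical
  let g : List Raw → ℕ → ℕ → Bool := fun y a b => (y.getD a ⟨[]⟩).w.getD b false
  have hg : ∀ {a b : List Raw × ℕ × ℕ → ℕ}, PT ∅ a → PT ∅ b → PT ∅ fun z => g z.1 (a z) (b z) :=
    fun ha hb => (PT.getD PT.fst' ha (PT.const _)).rawGetD hb
  refine fpras_ratio (apx_base pu_len (g := fun y a b => g y a b && g y b a)
    ((hg PT.snd'.fst PT.snd'.snd).and (hg PT.snd'.snd PT.snd'.fst)) fun _ _ _ => Bool.and_comm _ _)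
    (Apx.of_pt (PT.const 1)) fun ⟨n, G⟩ => ?_
  have h1 : ∀ a b : Fin n, g (raw (rows G)) a b = decide (G.Adj a b) := fun a b => by
    simp [g, getD_raw, rows, -List.getD_eq_getElem?_getD]
    simp
  have h2 : (raw (rows G)).length = n := by simp [length_raw, rows]
  dsimp only
  rw [h2, haf_fin fun a b => by rw [Bool.and_comm], Nat.cast_one, div_one, Nat.cast_inj]
  simp only [h1, G.adj_comm, Bool.and_self]
  rw [haf_eq_cnt fun a b => by simp only [G.adj_comm], ← card_matching]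
  exact Nat.card_congr (Equiv.subtypeEquivRight fun M => by
    rw [SimpleGraph.Subgraph.IsPerfectMatching, SimpleGraph.Subgraph.IsSpanning, coe_univ,
      Set.eq_univ_iff_forall])

variable {k : ℕ}

theorem length_code (G : Reg k) : G.code.length = G.m * k := by
  simp [Reg.code, List.length_flatMap]

theorem get_code (G : Reg k) (h : Fin G.m × Fin k) :
    G.code[h.1 * k + h.2]? = some (k * (G.e h).1 + (G.e h).2 : ℕ).bits := by
  rw [Reg.code, getElem?_flatMap_const (n := k) (by simp) _ _ h.2.2]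
  simp

theorem lt_code (G : Reg k) (h : Fin G.m × Fin k) : h.1 * k + h.2 < G.code.length :=
  (List.getElem?_eq_some_iff.1 (get_code G h)).1

theorem length_tables {m : ℕ} (w : Fin m → (Fin k → Bool) → ℚ≥0) :
    (tables w).length = m * (2 ^ k * 2) := by
  simp [tables, List.length_flatMap, frac]

theorem get_tables {m : ℕ} (w : Fin m → (Fin k → Bool) → ℚ≥0) (v : Fin m) {a j : ℕ}
    (ha : a < 2 ^ k) (hj : j < 2) : (tables w)[v * (2 ^ k * 2) + (a * 2 + j)]? =
      (frac (w v fun i => a.testBit i))[j]? := by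
  rw [tables, getElem?_flatMap_const (n := 2 ^ k * 2) (by simp [List.length_flatMap, frac]) _ _
    (by omega), List.getElem?_eq_getElem (by simp), Option.bind_some,
    getElem?_flatMap_const (n := 2) (fun _ => rfl) _ _ hj, List.getElem?_range ha]
  simp

theorem nat_tables (G : Reg k) (w : Fin G.m → (Fin k → Bool) → ℚ≥0) (v : Fin G.m) {a : ℕ}
    (ha : a < 2 ^ k) :
    nat (raw (G.code ++ tables w)) (G.m * k + (v * (2 ^ k * 2) + (a * 2 + 0))) =
      (w v fun i => a.testBit i).num ∧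
    nat (raw (G.code ++ tables w)) (G.m * k + (v * (2 ^ k * 2) + (a * 2 + 1))) =
      (w v fun i => a.testBit i).den := by
  constructor <;> refine nat_of ?_ <;>
    rw [List.getElem?_append_right (by rw [length_code]; omega), length_code,
      Nat.add_sub_cancel_left, get_tables w v ha (by omega)] <;> rfl

theorem pt_tables (k : ℕ) {m : List Raw → ℕ} (hm : PU m) {f : List Raw × ℕ × ℕ → ℕ}
    (hf : PT ∅ f) (j : ℕ) : PT ∅ fun p : List Raw × ℕ × ℕ =>
      nat p.1 (m p.1 * k + (p.2.1 * (2 ^ k * 2) + (f p * 2 + j))) :=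
  pt_nat PT.fst' (((hm.pt.comp PT.fst').mul (PT.const _)).add ((PT.snd'.fst.mul (PT.const _)).add
    ((hf.mul (PT.const _)).add (PT.const _))))

theorem hol_four (G : Reg 4) (o : Bool) (w : Fin G.m → (Fin 4 → Bool) → ℚ≥0) :
    G.hol o w = ∑ y : Fin G.m → Fin 4 → Bool with
      (∀ h, G.e h ≠ h → y (G.e h).1 (G.e h).2 = xor (y h.1 h.2) o) ∧
        Even #{h : Fin G.m × Fin 4 | G.e h = h ∧ y h.1 h.2}, ∏ v, (w v (y v) : ℝ) := by
  refine sum_equiv (Equiv.curry _ _ _) (fun x => ?_) fun _ _ => rfl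
  simp [G.ne]

theorem fpras_four (o : Bool) : FPRAS (fun x : (G : Reg 4) ×
      {w : Fin G.m → (Fin 4 → Bool) → ℚ≥0 // ∀ v, Parity (w v) ∧ Balanced (w v)} =>
    x.1.code ++ tables x.2.1) fun x => x.1.hol o x.2.1 := by
  have hm := pu_div 0 36
  refine fpras_pair o hm (pt_nat PT.fst' PT.snd')
    (nu := fun y v a => nat y ((y.length - 0) / 36 * 4 + (v * (2 ^ 4 * 2) + (a * 2 + 0))))
    (de := fun y v a => nat y ((y.length - 0) / 36 * 4 + (v * (2 ^ 4 * 2) + (a * 2 + 1))))
    (pt_tables 4 hm PT.snd'.snd 0) (pt_tables 4 hm PT.snd'.snd 1) fun ⟨G, w, hw⟩ => ?_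
  have h1 : ((raw (G.code ++ tables w)).length - 0) / 36 = G.m := by
    rw [length_raw, List.length_append, length_code, length_tables]
    omega
  refine ⟨G.m, G.e, w, h1, G.inv, fun h => nat_of ?_, hw, fun v a ha => ?_, hol_four G o w⟩
  · rw [mul_comm, List.getElem?_append_left (lt_code G h), get_code]
  · dsimp only
    rw [h1, (nat_tables G w v ha).1, (nat_tables G w v ha).2]
    exact ⟨NNRat.den_ne_zero _, (NNRat.num_div_den _).symm⟩

/-- the weight of the state number `t` -/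
def ix8 (t : ℕ) : ℕ := [3, 4, 4, 0, 4, 2, 1, 4, 4, 1, 2, 4, 0, 4, 4, 3].getD t 4

theorem eight_st (a b c d : ℚ≥0) {t : ℕ} (ht : t < 16) :
    eight a b c d (st t) = [a, b, c, d].getD (ix8 t) 0 := by
  interval_cases t <;> rfl

theorem eight_gate {p : Fin 4 → ℚ≥0} (h : ∀ i, 2 * p i ^ 2 ≤ ∑ j, p j ^ 2) :
    Parity (eight (p 0) (p 1) (p 2) (p 3)) ∧ Balanced (eight (p 0) (p 1) (p 2) (p 3)) := by
  refine ⟨Or.inl fun x hx => if_pos hx, fun x => ?_⟩
  have h1 : ∑ y, eight (p 0) (p 1) (p 2) (p 3) y * eight (p 0) (p 1) (p 2) (p 3) (fun i => !y i) =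
      2 * ∑ j, p j ^ 2 := by
    rw [sum_st, sum_congr rfl fun t ht => by
      rw [st_compl t (mem_range.1 ht), eight_st _ _ _ _ (mem_range.1 ht),
        eight_st _ _ _ _ (by omega)]]
    simp only [sum_range_succ, sum_range_zero, Fin.sum_univ_four, ix8, Nat.reduceSub,
      List.getD_cons_succ, List.getD_cons_zero, List.getD_nil, tsub_zero]
    ring
  have h2 : ∀ i, 4 * (p i * p i) ≤ 2 * ∑ j, p j ^ 2 := fun i =>
    le_of_eq_of_le (by ring) (mul_le_mul_of_nonneg_left (h i) zero_le)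
  have h3 := num_lt x
  have h4 : ∀ t < 16, ix8 (15 - t) = ix8 t ∧ ix8 t ≤ 4 := by decide
  rw [h1, ← st_num x, st_compl _ h3, eight_st _ _ _ _ h3, eight_st _ _ _ _ (by omega), (h4 _ h3).1]
  have h5 := (h4 _ h3).2
  generalize ix8 (num x) = j at h5
  interval_cases j
  exacts [h2 0, h2 1, h2 2, h2 3, by simp]

theorem fpras_eight : FPRAS (fun x : Reg 4 ×
      {p : Fin 4 → ℚ≥0 // ∀ i, 2 * p i ^ 2 ≤ ∑ j, p j ^ 2} =>
    (List.ofFn fun i => frac (x.2.1 i)).flatten ++ x.1.code)
    fun x => x.1.hol true fun _ => eight (x.2.1 0) (x.2.1 1) (x.2.1 2) (x.2.1 3) := by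
  have hx : PT ∅ fun p : List Raw × ℕ × ℕ => ix8 p.2.2 :=
    PT.getD (PT.const _) PT.snd'.snd (PT.const 4)
  refine fpras_pair true (pu_div 8 4) (E := fun y h => nat y (8 + h))
    (pt_nat PT.fst' ((PT.const 8).add PT.snd'))
    (nu := fun y _ t => if ix8 t = 4 then 0 else nat y (2 * ix8 t))
    (de := fun y _ t => if ix8 t = 4 then 1 else nat y (2 * ix8 t + 1))
    (PT.ite (hx.eqNat (PT.const 4)) (PT.const 0) (pt_nat PT.fst' hx.double))
    (PT.ite (hx.eqNat (PT.const 4)) (PT.const 1) (pt_nat PT.fst' (hx.double.add (PT.const 1))))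
    fun ⟨G, p, hp⟩ => ?_
  have h0 : (List.ofFn fun i => frac (p i)).flatten.length = 8 := rfl
  refine ⟨G.m, G.e, _, ?_, G.inv, fun h => nat_of ?_, fun _ => eight_gate hp, fun v t ht => ?_,
    hol_four G true _⟩
  · dsimp only
    rw [length_raw, List.length_append, length_code, h0]
    omega
  · dsimp only
    rw [List.getElem?_append_right (by omega), h0, Nat.add_sub_cancel_left, mul_comm, get_code]
  · have h1 : ∀ i : Fin 4,
        nat (raw ((List.ofFn fun i => frac (p i)).flatten ++ G.code)) (2 * i) = (p i).num ∧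
        nat (raw ((List.ofFn fun i => frac (p i)).flatten ++ G.code)) (2 * i + 1) = (p i).den :=
      fun i => by fin_cases i <;> exact ⟨nat_of rfl, nat_of rfl⟩
    have h2 : ∀ t < 16, ix8 t ≤ 4 := by decide
    have h3 := h2 t ht
    dsimp only
    rw [eight_st _ _ _ _ ht]
    generalize ix8 t = j at h3
    rcases h3.eq_or_lt with rfl | h4
    · simp
    rw [if_neg h4.ne, if_neg h4.ne, (h1 ⟨j, h4⟩).1, (h1 ⟨j, h4⟩).2, NNRat.num_div_den]
    exact ⟨NNRat.den_ne_zero _, by interval_cases j <;> rfl⟩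

/-! ### Arity three -/

/-- the first three legs -/
abbrev ini (z : Fin 4 → Bool) : Fin 3 → Bool := fun i => z i.castSucc

/-- the fourth leg completes the parity -/
def ext (x : Fin 3 → Bool) : Fin 4 → Bool := ![x 0, x 1, x 2, xor (x 0) (xor (x 1) (x 2))]

theorem ext_spec : ∀ x, ¬ Odd #{i | ext x i} ∧ ini (ext x) = x := by decide

theorem ext_ini : ∀ z : Fin 4 → Bool, ¬ Odd #{i | z i} → ext (ini z) = z := by decide

/-- the gate of a ternary table -/
def lift (w : (Fin 3 → Bool) → ℚ≥0) (z : Fin 4 → Bool) : ℚ≥0 :=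
  if Odd #{i | z i} then 0 else w (ini z)

theorem lift_ext (w : (Fin 3 → Bool) → ℚ≥0) (x : Fin 3 → Bool) : lift w (ext x) = w x := by
  rw [lift, if_neg (ext_spec x).1, (ext_spec x).2]

theorem lift_gate {w : (Fin 3 → Bool) → ℚ≥0} (h : Balanced w) :
    Parity (lift w) ∧ Balanced (lift w) := by
  refine ⟨Or.inl fun x hx => if_pos hx, fun z => ?_⟩
  have k1 : ∀ x, (fun i => !ext x i) = ext fun i => !x i := by decide
  have h1 : ∑ x, w x * w (fun i => !x i) = ∑ y, lift w y * lift w fun i => !y i :=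
    sum_of_injOn ext (fun x _ x' _ k => by rw [← (ext_spec x).2, k, (ext_spec x').2])
      (fun _ _ => mem_coe.2 (mem_univ _)) (fun y _ hy => by
        rw [lift, if_pos (by_contra fun k => hy ⟨_, mem_coe.2 (mem_univ _), ext_ini y k⟩),
          zero_mul]) fun x _ => by rw [k1, lift_ext, lift_ext]
  by_cases hz : Odd #{i | z i}
  · rw [lift, if_pos hz, zero_mul, mul_zero]
    exact zero_le
  · rw [← h1, ← ext_ini z hz, k1, lift_ext, lift_ext]
    exact h _

/-- the pairing of the legs, the fourth legs are free -/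
def Reg.up (G : Reg 3) (h : Fin G.m × Fin 4) : Fin G.m × Fin 4 :=
  if k : h.2.1 < 3 then ((G.e (h.1, ⟨h.2, k⟩)).1, (G.e (h.1, ⟨h.2, k⟩)).2.castSucc) else h

theorem up_cast (G : Reg 3) (h : Fin G.m × Fin 3) :
    G.up (h.1, h.2.castSucc) = ((G.e h).1, (G.e h).2.castSucc) := dif_pos h.2.2

theorem up_last (G : Reg 3) (v : Fin G.m) : G.up (v, 3) = (v, 3) := dif_neg (lt_irrefl 3)

theorem forall_leg {m : ℕ} {P : Fin m × Fin 4 → Prop} :
    (∀ h, P h) ↔ (∀ h : Fin m × Fin 3, P (h.1, h.2.castSucc)) ∧ ∀ v, P (v, 3) :=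
  ⟨fun H => ⟨fun _ => H _, fun _ => H _⟩, fun H h =>
    Fin.lastCases (motive := fun i => P (h.1, i)) (H.2 _) (fun i => H.1 (h.1, i)) h.2⟩

theorem up_ne (G : Reg 3) (h : Fin G.m × Fin 3) :
    G.up (h.1, h.2.castSucc) ≠ (h.1, h.2.castSucc) := fun k => by
  rw [up_cast, Prod.mk.injEq, Fin.castSucc_inj] at k
  exact G.ne h (Prod.ext k.1 k.2)

theorem hol_three (G : Reg 3) (w : Fin G.m → (Fin 3 → Bool) → ℚ≥0) :
    G.hol false w = ∑ y : Fin G.m → Fin 4 → Bool with
      (∀ h, G.up h ≠ h → y (G.up h).1 (G.up h).2 = xor (y h.1 h.2) false) ∧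
        Even #{h : Fin G.m × Fin 4 | G.up h = h ∧ y h.1 h.2}, ∏ v, (lift (w v) (y v) : ℝ) := by
  have k0 : ∀ x i, ext x (Fin.castSucc i) = x i := fun x => congrFun (ext_spec x).2
  refine sum_of_injOn (fun x v => ext fun i => x (v, i)) (fun x _ x' _ k => ?_) (fun x hx => ?_)
    (fun y hy hy' => ?_) fun x _ => by simp only [lift_ext]
  · funext h
    have := congrFun (congrFun k h.1) h.2.castSucc
    simpa only [k0] using this
  · have hx := (mem_filter.1 (mem_coe.1 hx)).2
    refine mem_coe.2 (mem_filter.2 ⟨mem_univ _, forall_leg.2 ⟨fun h _ => ?_, fun v k => ?_⟩, ?_⟩)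
    · rw [up_cast]
      simpa only [k0] using hx h
    · exact absurd (up_last G v) k
    · have a1 : ∑ h, ((x h).toNat : ZMod 2) = 0 :=
        sum_involution (fun h _ => G.e h) (fun h _ => by
          rw [hx, Bool.xor_false]
          exact CharTwo.add_self_eq_zero _) (fun h _ _ => G.ne h) (fun _ _ => mem_univ _)
          fun h _ => G.inv h
      rw [← ZMod.natCast_eq_zero_iff_even, card_filter, Nat.cast_sum, ← a1, Fintype.sum_prod_type,
        Fintype.sum_prod_type]
      refine sum_congr rfl fun v _ => ?_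
      rw [Fin.sum_univ_castSucc, sum_eq_zero fun i _ => by
        rw [if_neg fun k => up_ne G (v, i) k.1, Nat.cast_zero], zero_add, Fin.sum_univ_three]
      change ((if G.up (v, 3) = (v, 3) ∧ xor (x (v, 0)) (xor (x (v, 1)) (x (v, 2))) = true then 1
        else 0 : ℕ) : ZMod 2) = _
      rw [up_last]
      cases x (v, 0) <;> cases x (v, 1) <;> cases x (v, 2) <;> simp <;> decide
  · by_contra k
    refine hy' ⟨fun h => y h.1 h.2.castSucc, mem_coe.2 (mem_filter.2 ⟨mem_univ _, fun h => ?_⟩),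
      funext fun v => ext_ini _ fun k' => k (prod_eq_zero (mem_univ v) ?_)⟩
    · have := (mem_filter.1 hy).2.1 _ (up_ne G h)
      rwa [up_cast] at this
    · rw [lift, if_pos k', NNRat.cast_zero]

theorem fpras_three : FPRAS (fun x : (G : Reg 3) ×
      {w : Fin G.m → (Fin 3 → Bool) → ℚ≥0 // ∀ v, Balanced (w v)} =>
    x.1.code ++ tables x.2.1) fun x => x.1.hol false x.2.1 := by
  have hm := pu_div 0 19
  have h8 : PT ∅ fun p : List Raw × ℕ × ℕ => p.2.2 % 8 := PT.snd'.snd.mod (PT.const 8)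
  have h4 : PT ∅ fun p : List Raw × ℕ => p.2 % 4 := PT.snd'.mod (PT.const 4)
  have hp : PT ∅ fun p : List Raw × ℕ => nat p.1 (p.2 / 4 * 3 + p.2 % 4) :=
    pt_nat PT.fst' (((PT.snd'.div (PT.const 4)).mul (PT.const 3)).add h4)
  have hx : PT ∅ fun p : List Raw × ℕ × ℕ => ix8 p.2.2 :=
    PT.getD (PT.const _) PT.snd'.snd (PT.const 4)
  refine fpras_pair false hm (E := fun y h => if h % 4 < 3 then
      4 * (nat y (h / 4 * 3 + h % 4) / 3) + nat y (h / 4 * 3 + h % 4) % 3 else h)
    (PT.ite (h4.lt (PT.const 3)) (((PT.const 4).mul (hp.div (PT.const 3))).add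
      (hp.mod (PT.const 3))) PT.snd')
    (nu := fun y v a => if ix8 a = 4 then 0 else
      nat y ((y.length - 0) / 19 * 3 + (v * (2 ^ 3 * 2) + (a % 8 * 2 + 0))))
    (de := fun y v a => nat y ((y.length - 0) / 19 * 3 + (v * (2 ^ 3 * 2) + (a % 8 * 2 + 1))))
    (PT.ite (hx.eqNat (PT.const 4)) (PT.const 0) (pt_tables 3 hm h8 0)) (pt_tables 3 hm h8 1)
    fun ⟨G, w, hw⟩ => ?_
  have h1 : ((raw (G.code ++ tables w)).length - 0) / 19 = G.m := by
    rw [length_raw, List.length_append, length_code, length_tables]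
    omega
  refine ⟨G.m, G.up, _, h1, forall_leg.2 ⟨fun h => ?_, fun v => ?_⟩,
    forall_leg.2 ⟨fun h => ?_, fun v => ?_⟩, fun v => lift_gate (hw v), fun v a ha => ?_,
    hol_three G w⟩
  · rw [up_cast, up_cast, G.inv]
  · rw [up_last, up_last]
  · have a1 := h.2.2
    have a2 := (G.e h).2.2
    have a3 : nat (raw (G.code ++ tables w)) (h.1 * 3 + h.2) = 3 * (G.e h).1 + (G.e h).2 :=
      nat_of (by rw [List.getElem?_append_left (lt_code G h), get_code])
    rw [up_cast]
    simp only [Fin.val_castSucc]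
    rw [show (4 * (h.1 : ℕ) + h.2) % 4 = h.2 by omega, show (4 * (h.1 : ℕ) + h.2) / 4 = h.1 by omega,
      if_pos a1, a3]
    omega
  · rw [up_last]
    exact if_neg (by change ¬ (4 * (v : ℕ) + 3) % 4 < 3; omega)
  · have a1 : a % 8 < 2 ^ 3 := Nat.mod_lt _ (by norm_num)
    have a2 : ∀ a < 16, (Odd #{i | st a i} ↔ ix8 a = 4) ∧
      ini (st a) = fun i : Fin 3 => (a % 8).testBit i := by decide
    dsimp only
    rw [h1, (nat_tables G w v a1).1, (nat_tables G w v a1).2, lift, (a2 a ha).2]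
    refine ⟨NNRat.den_ne_zero _, ?_⟩
    by_cases k : ix8 a = 4
    · rw [if_pos k, if_pos ((a2 a ha).1.2 k), Nat.cast_zero, zero_div]
    · rw [if_neg k, if_neg (mt (a2 a ha).1.1 k), NNRat.num_div_den]

end Vale.Agent.N308H
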