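import Vale.Agent.N308H.Haf

/-!
The gadget on six vertices for a four-legged gate, and the graph of a network.
-/

namespace Vale.Agent.N308H

open Finset Vale.Agent.N308S

/-! ### One gate -/

/-- the defect -/
def gD (u : ℕ → ℕ) : ℕ := u 12 * u 3 + u 10 * u 5 + u 6 * u 9 - u 15 * u 0

/-- the scale of the second leg -/
def gR (u : ℕ → ℕ) : ℕ := max 1 (2 * (u 10 * u 6))

/-- the weights of the gadget; `0, 1, 2, 3` are the legs -/
def gd (u : ℕ → ℕ) (a b : ℕ) : ℕ :=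
  if a = 0 ∧ b = 1 then u 12 * gR u else if a = 0 ∧ b = 4 then u 15 else
  if a = 1 ∧ b = 4 then gD u else if a = 2 ∧ b = 5 then u 10 else if a = 3 ∧ b = 5 then u 6 else
  if a = 4 ∧ b = 5 then 1 else if a = 2 ∧ b = 3 then u 3 * u 15 else
  if a = 1 ∧ b = 3 then gR u * u 5 - gD u * u 6 else
  if a = 1 ∧ b = 2 then gR u * u 9 - gD u * u 10 else 0

/-- the weights of the outer edges -/
def gm (u : ℕ → ℕ) (i : ℕ) : ℕ := if i = 1 then gR u else u 15

/-- the scale of the gadget -/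
def sc (u : ℕ → ℕ) : ℕ := u 15 * u 15 * gR u

/-- the table is in normal position -/
def Good (u : ℕ → ℕ) : Prop :=
  0 < u 15 ∧ u 15 * u 0 ≤ u 12 * u 3 + u 10 * u 5 + u 6 * u 9 ∧
    gD u ≤ 2 * (u 10 * u 5) ∧ gD u ≤ 2 * (u 6 * u 9)

instance (u : ℕ → ℕ) : Decidable (Good u) := by unfold Good; infer_instance

/-- the table vanishes on the odd states -/
def Ev (u : ℕ → ℕ) : Prop :=
  u 1 = 0 ∧ u 2 = 0 ∧ u 4 = 0 ∧ u 7 = 0 ∧ u 8 = 0 ∧ u 11 = 0 ∧ u 13 = 0 ∧ u 14 = 0

/-- the number of a state -/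
def num (y : Fin 4 → Bool) : ℕ :=
  (y 0).toNat + 2 * (y 1).toNat + 4 * (y 2).toNat + 8 * (y 3).toNat

/-- the vertices which remain -/
def rem (y : Fin 4 → Bool) : List ℕ :=
  (bif y 0 then [] else [0]) ++ (bif y 1 then [] else [1]) ++ (bif y 2 then [] else [2]) ++
    (bif y 3 then [] else [3]) ++ [4, 5]

theorem haf_gate {u : ℕ → ℕ} (hu : Good u) (he : Ev u) (y : Fin 4 → Bool) :
    haf (sy (gd u)) (rem y).toFinset * ∏ i : Fin 4, (if y i then gm u i else 1) =
      sc u * u (num y) := by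
  obtain ⟨-, h1, h2, h3⟩ := hu
  obtain ⟨e1, e2, e4, e7, e8, e11, e13, e14⟩ := he
  have k1 : 2 * (u 10 * u 6) * gD u = gR u * gD u := by
    rcases Nat.eq_zero_or_pos (u 10 * u 6) with h | h
    · have : gD u = 0 := by
        rcases Nat.mul_eq_zero.1 h with h | h
        · rw [h] at h2; omega
        · rw [h] at h3; omega
      rw [this, mul_zero, mul_zero]
    · rw [gR, max_eq_right (by omega)]
  have k0 : 2 * (u 10 * u 6) ≤ gR u := le_max_right _ _
  have k2 : gD u * u 6 ≤ gR u * u 5 := by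
    calc gD u * u 6 ≤ 2 * (u 10 * u 5) * u 6 := Nat.mul_le_mul_right _ h2
      _ = 2 * (u 10 * u 6) * u 5 := by ring
      _ ≤ _ := Nat.mul_le_mul_right _ k0
  have k3 : gD u * u 10 ≤ gR u * u 9 := by
    calc gD u * u 10 ≤ 2 * (u 6 * u 9) * u 10 := Nat.mul_le_mul_right _ h3
      _ = 2 * (u 10 * u 6) * u 9 := by ring
      _ ≤ _ := Nat.mul_le_mul_right _ k0
  have k4 : gD u + u 15 * u 0 = u 12 * u 3 + u 10 * u 5 + u 6 * u 9 := Nat.sub_add_cancel h1
  obtain ⟨α, hα⟩ := Nat.exists_eq_add_of_le k2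
  obtain ⟨β, hβ⟩ := Nat.exists_eq_add_of_le k3
  have k5 : gR u * u 5 - gD u * u 6 = α := by omega
  have k6 : gR u * u 9 - gD u * u 10 = β := by omega
  rw [haf_eq_hafL (sy_comm _) 6 _ (by revert y; decide) (by revert y; decide), Fin.prod_univ_four,
    rem, num, sc]
  generalize y 0 = b0, y 1 = b1, y 2 = b2, y 3 = b3
  cases b0 <;> cases b1 <;> cases b2 <;> cases b3 <;>
    simp [hafL, sy, gd, gm, k5, k6, e1, e2, e4, e7, e8, e11, e13, e14]
  all_goals first
    | ring1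
    | exact Or.inl (by ring)
    | (rw [mul_assoc _ (gR u), hβ]; ring1)
    | (rw [mul_assoc _ (gR u), hα]; ring1)
    | (zify at hα hβ k1 k4 ⊢
       linear_combination (-u 15 * u 10 : ℤ) * hα - (u 15 * u 6 : ℤ) * hβ - (u 15 : ℤ) * k1 -
        (u 15 * gR u : ℤ) * k4)

/-! ### The graph of a network -/

/-- the edges of the gadgets -/
def dG (u : ℕ → ℕ → ℕ) (x y : V3) : ℕ :=
  if x.2.2 < 6 ∧ y.2.2 < 6 ∧ x.1 = y.1 then gd (u x.1) x.2.2 y.2.2 else 0

/-- the edges of the chains -/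
def dC (s : ℕ → ℕ) (u : ℕ → ℕ → ℕ) (x y : V3) : ℕ :=
  if y.2.2 = 6 then
    if x.2.2 = 6 then (if x.1 = y.1 ∧ y.2.1 = x.2.1 + 1 then 1 else 0)
    else if x.2.2 < 4 ∧ s (4 * x.1 + x.2.2) = y.1 ∧
      (y.2.1 = 4 * x.1 + x.2.2 ∨ y.2.1 = 4 * x.1 + x.2.2 + 1) then gm (u x.1) x.2.2 else 0
  else 0

/-- the vertices: `(k, 0, i)` belongs to the gadget `k`, `(v, q, 6)` to the chain of `v` -/
def nP (m n : ℕ) (τ : ℕ → Bool) (x : V3) : Prop :=
  if x.2.2 < 6 then x.1 < m ∧ x.2.1 = 0 else x.1 < n ∧ (x.2.1 = 0 → τ x.1 = true)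

instance (m n : ℕ) (τ : ℕ → Bool) : DecidablePred (nP m n τ) := fun _ => by
  unfold nP; infer_instance

/-- the set of the vertices -/
def nS (m n : ℕ) (τ : ℕ → Bool) : Finset V3 :=
  (range (m + n) ×ˢ range (4 * m + 1) ×ˢ range 7).filter (nP m n τ)

theorem mem_nS {m n : ℕ} {τ : ℕ → Bool} {x : V3} : x ∈ nS m n τ ↔
    x.2.2 < 6 ∧ x.1 < m ∧ x.2.1 = 0 ∨
      x.2.2 = 6 ∧ x.1 < n ∧ x.2.1 ≤ 4 * m ∧ (x.2.1 = 0 → τ x.1 = true) := by
  simp only [nS, nP, mem_filter, mem_product, mem_range]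
  by_cases h : τ x.1 = true
  · simp only [h, implies_true, and_true]
    split_ifs <;> omega
  · simp only [h]
    split_ifs <;> simp <;> omega

variable {m : ℕ}

/-- a state as a function of two numbers -/
def ex (y : Fin m → Fin 4 → Bool) (k i : ℕ) : Bool :=
  if h : k < m ∧ i < 4 then y ⟨k, h.1⟩ ⟨i, h.2⟩ else false

theorem ex_val (y : Fin m → Fin 4 → Bool) (k : Fin m) (i : Fin 4) : ex y k i = y k i :=
  dif_pos ⟨k.2, i.2⟩

theorem ex_lt {y : Fin m → Fin 4 → Bool} {k i : ℕ} (h : ex y k i = true) : k < m ∧ i < 4 := by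
  by_contra h'
  rw [ex, dif_neg h'] at h
  exact Bool.false_ne_true h

/-- the vertices which are matched inside the gadgets -/
def tS (n : ℕ) (τ : ℕ → Bool) (y : Fin m → Fin 4 → Bool) : Finset V3 :=
  (nS m n τ).filter fun x => x.2.2 < 6 ∧ ex y x.1 x.2.2 = false

theorem haf_tS (n : ℕ) (τ : ℕ → Bool) (u : ℕ → ℕ → ℕ) (y : Fin m → Fin 4 → Bool) :
    haf (sy (dG u)) (tS n τ y) = ∏ k : Fin m, haf (sy (gd (u k))) (rem (y k)).toFinset := by
  rw [haf_fiber (sy_comm _) (fun x => x.1) (range m), ← Fin.prod_univ_eq_prod_range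
    fun k => haf (sy (dG u)) ((tS n τ y).filter fun x => x.1 = k)]
  · refine prod_congr rfl fun k _ => ?_
    let e : ℕ ↪ V3 := ⟨fun i => (k, 0, i), fun _ _ h => by simpa using h⟩
    have h1 : ∀ i, i ∈ rem (y k) ↔ i < 6 ∧ ex y k i = false := fun i => by
      have a0 := ex_val y k 0
      have a1 := ex_val y k 1
      have a2 := ex_val y k 2
      have a3 := ex_val y k 3
      by_cases hi : i < 4
      · rw [rem, ← a0, ← a1, ← a2, ← a3]
        interval_cases i <;> simp <;> cases ex y k 0 <;> cases ex y k 1 <;> cases ex y k 2 <;>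
          cases ex y k 3 <;> simp
      · have : ex y k i = false := by rw [ex, dif_neg (by omega)]
        rw [rem, this]
        cases y k 0 <;> cases y k 1 <;> cases y k 2 <;> cases y k 3 <;> simp <;> omega
    have e1 : ∀ i, e i = (k.1, 0, i) := fun _ => rfl
    have h2 : ((tS n τ y).filter fun x => x.1 = k.1) = (rem (y k)).toFinset.map e := by
      ext ⟨a, b, c⟩
      simp only [tS, mem_filter, mem_nS, mem_map, List.mem_toFinset, h1, e1, Prod.mk.injEq]
      constructor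
      · rintro ⟨⟨h3, h4, h5⟩, rfl⟩
        exact ⟨c, ⟨h4, h5⟩, rfl, by omega, rfl⟩
      · rintro ⟨_, ⟨h3, h4⟩, rfl, rfl, rfl⟩
        exact ⟨⟨Or.inl ⟨h3, k.2, rfl⟩, h3, h4⟩, rfl⟩
    rw [h2, ← haf_map (sy_comm _)]
    refine haf_congr fun a ha b hb _ => ?_
    rw [List.mem_toFinset, h1] at ha hb
    simp [sy, dG, e1, ha.1, hb.1]
  · intro x hx
    simp only [tS, mem_filter, mem_nS] at hx
    rw [mem_range]
    omega
  · intro a _ b _ h
    simp [sy, dG, h, h.symm]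

/-- the positions of the legs at `v` which are matched in the chain -/
def yS (s : ℕ → ℕ) (y : Fin m → Fin 4 → Bool) (v : ℕ) : Finset ℕ :=
  (range (4 * m)).filter fun h => s h = v ∧ ex y (h / 4) (h % 4) = true

/-- the position of a leg -/
def pos (m : ℕ) : Fin m × Fin 4 ↪ ℕ :=
  ⟨fun h => 4 * h.1 + h.2, fun a b h => Prod.ext (Fin.ext (by dsimp only at h; omega))
    (Fin.ext (by dsimp only at h; omega))⟩

theorem pos_apply (h : Fin m × Fin 4) : pos m h = 4 * h.1 + h.2 := rfl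

theorem yS_eq (s : ℕ → ℕ) (y : Fin m → Fin 4 → Bool) (v : ℕ) : yS s y v =
    (univ.filter fun h : Fin m × Fin 4 => s (4 * h.1 + h.2) = v ∧ y h.1 h.2).map (pos m) := by
  ext h
  simp only [yS, mem_filter, mem_range, mem_map, mem_univ, true_and, pos_apply]
  constructor
  · rintro ⟨h1, h2, h3⟩
    have h4 : 4 * (h / 4) + h % 4 = h := Nat.div_add_mod h 4
    exact ⟨(⟨h / 4, by omega⟩, ⟨h % 4, by omega⟩), ⟨by rwa [h4], (ex_val y _ _).symm.trans h3⟩, h4⟩
  · rintro ⟨⟨k, i⟩, ⟨h1, h2⟩, rfl⟩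
    refine ⟨by omega, h1, ?_⟩
    dsimp only at h2 ⊢
    rw [show (4 * (k : ℕ) + i) / 4 = k by omega, show (4 * (k : ℕ) + i) % 4 = i by omega, ex_val, h2]

theorem haf_cS {n : ℕ} (τ : ℕ → Bool) {s : ℕ → ℕ} (hs : ∀ h < 4 * m, s h < n) (u : ℕ → ℕ → ℕ)
    (y : Fin m → Fin 4 → Bool) : haf (sy (dC s u)) (nS m n τ \ tS n τ y) =
      if ∀ v < n, ((τ v).toNat + #(yS s y v)) % 2 = 0 then
        ∏ k : Fin m, ∏ i : Fin 4, (if y k i then gm (u k) i else 1) else 0 := by
  have hm : ∀ x, x ∈ nS m n τ \ tS n τ y ↔ x.2.2 < 4 ∧ x.1 < m ∧ x.2.1 = 0 ∧ ex y x.1 x.2.2 = true ∨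
      x.2.2 = 6 ∧ x.1 < n ∧ x.2.1 ≤ 4 * m ∧ (x.2.1 = 0 → τ x.1 = true) := fun x => by
    rw [tS, ← filter_not, mem_filter, mem_nS]
    rcases h : ex y x.1 x.2.2 with _ | _
    · simp only [and_true, Bool.false_eq_true, and_false, false_or]
      exact ⟨fun h => h.1.resolve_left fun h' => h.2 h'.1, fun h => ⟨Or.inr h, by omega⟩⟩
    · have := (ex_lt h).2
      simp [this, show x.2.2 < 6 by omega]
  let g : V3 → ℕ := fun x => if x.2.2 = 6 then x.1 else s (4 * x.1 + x.2.2)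
  let μ : ℕ → ℕ := fun h => gm (u (h / 4)) (h % 4)
  have key : ∀ v ∈ range n, haf (sy (dC s u)) ((nS m n τ \ tS n τ y).filter fun x => g x = v) =
      if ((τ v).toNat + #(yS s y v)) % 2 = 0 then ∏ h ∈ yS s y v, μ h else 0 := fun v hv => by
    let e : ℕ × Bool ↪ V3 := ⟨fun x => if x.2 then (x.1 / 4, 0, x.1 % 4) else (v, x.1, 6), by
      rintro ⟨a, _ | _⟩ ⟨b, _ | _⟩ h <;> simp at h ⊢ <;> omega⟩
    have e1 : ∀ a, e (a, true) = (a / 4, 0, a % 4) := fun _ => rfl
    have e0 : ∀ a, e (a, false) = (v, a, 6) := fun _ => rfl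
    have h1 : ((nS m n τ \ tS n τ y).filter fun x => g x = v) =
        (cS (4 * m) (yS s y v) 0 (τ v)).map e := by
      ext ⟨a, b, c⟩
      rw [mem_filter, hm, mem_map]
      simp only [g]
      constructor
      · rintro ⟨⟨h1, h2, rfl, h4⟩ | ⟨rfl, h2, h3, h4⟩, h5⟩
        · rw [if_neg (by omega)] at h5
          have a1 : (4 * a + c) / 4 = a := by omega
          have a2 : (4 * a + c) % 4 = c := by omega
          refine ⟨(4 * a + c, true), mem_cS.2 ⟨by omega, Or.inl ⟨rfl, ?_, Nat.zero_le _⟩⟩, by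
            rw [e1, a1, a2]⟩
          simp only [yS, mem_filter, mem_range, a1, a2]
          exact ⟨by omega, h5, h4⟩
        · obtain rfl : a = v := h5
          refine ⟨(b, false), mem_cS.2 ⟨h3, Or.inr ⟨rfl, ?_⟩⟩, rfl⟩
          rcases Nat.eq_zero_or_pos b with h | h
          · exact Or.inr ⟨h, h4 h⟩
          · exact Or.inl h
      · rintro ⟨⟨q, _ | _⟩, h1, h2⟩
        · rw [e0] at h2
          obtain ⟨rfl, rfl, rfl⟩ : v = a ∧ q = b ∧ 6 = c := by simpa using h2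
          simp only [mem_cS] at h1
          refine ⟨Or.inr ⟨rfl, mem_range.1 hv, h1.1, fun h => ?_⟩, rfl⟩
          simpa [h] using h1.2
        · rw [e1] at h2
          obtain ⟨rfl, rfl, rfl⟩ : q / 4 = a ∧ 0 = b ∧ q % 4 = c := by simpa using h2
          have h3 : q ∈ yS s y v := by simpa [mem_cS] using (mem_cS.1 h1).2
          simp only [yS, mem_filter, mem_range] at h3
          refine ⟨Or.inl ⟨by omega, by omega, rfl, h3.2.2⟩, ?_⟩
          rw [if_neg (by omega), Nat.div_add_mod, h3.2.1]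
    have h2 := haf_chain μ (H := 4 * m) (Y := yS s y v)
      (fun h hh => mem_range.1 (mem_filter.1 hh).1) (4 * m) 0 (τ v) (zero_add _)
    rw [filter_true_of_mem fun _ _ => Nat.zero_le _] at h2
    rw [h1, ← haf_map (sy_comm _), ← if_congr (P := ((τ v).toNat + 4 * m + #(yS s y v)) % 2 = 0)
      (by omega) rfl rfl, ← h2]
    have h3 : ∀ a, (a, true) ∈ cS (4 * m) (yS s y v) 0 (τ v) → s a = v := by
      intro a ha
      have h3 : a ∈ yS s y v := by simpa [mem_cS] using (mem_cS.1 ha).2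
      exact (mem_filter.1 h3).2.1
    have h4 : ∀ a : ℕ, a % 4 ≠ 6 ∧ a % 4 < 4 ∧ 4 * (a / 4) + a % 4 = a := fun a => by omega
    refine haf_congr ?_
    rintro ⟨a, _ | _⟩ ha ⟨b, _ | _⟩ hb -
    · simp [sy, dC, cd, e0]
    · simp [sy, dC, cd, e0, e1, μ, h3 b hb, h4 b]
    · simp [sy, dC, cd, e0, e1, μ, h3 a ha, h4 a]
    · simp [sy, dC, cd, e1, h4 a, h4 b]
  rw [haf_fiber (sy_comm _) g (range n), prod_congr rfl key, prod_ite_zero]
  · refine if_congr (by simp) ?_ rfl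
    rw [← Fintype.prod_prod_type', ← prod_filter,
      ← prod_fiberwise_of_maps_to (t := range n) (g := fun h : Fin m × Fin 4 => s (4 * h.1 + h.2))
        fun h _ => mem_range.2 (hs _ (by omega))]
    refine prod_congr rfl fun v _ => ?_
    rw [yS_eq, prod_map, filter_filter]
    refine prod_congr (filter_congr fun _ _ => and_comm) fun h _ => ?_
    simp only [μ, pos_apply]
    rw [show (4 * (h.1 : ℕ) + h.2) / 4 = h.1 by omega, show (4 * (h.1 : ℕ) + h.2) % 4 = h.2 by omega]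
  · intro x hx
    rw [hm] at hx
    simp only [g, mem_range]
    split_ifs with h
    · omega
    · exact hs _ (by omega)
  · have h0 : ∀ a b, g a ≠ g b → dC s u a b = 0 := fun a b h => by
      simp only [g] at h
      unfold dC
      by_cases h1 : b.2.2 = 6
      · rw [if_pos h1] at h ⊢
        by_cases h2 : a.2.2 = 6
        · rw [if_pos h2] at h ⊢
          exact if_neg fun h' => h h'.1
        · rw [if_neg h2] at h ⊢
          exact if_neg fun h' => h h'.2.1
      · exact if_neg h1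
    intro a _ b _ h
    rw [sy, h0 a b h, h0 b a h.symm]

theorem haf_net {n : ℕ} (τ : ℕ → Bool) {s : ℕ → ℕ} (hs : ∀ h < 4 * m, s h < n) {u : ℕ → ℕ → ℕ}
    (hu : ∀ k < m, Good (u k) ∧ Ev (u k)) :
    haf (fun a b => sy (dG u) a b + sy (dC s u) a b) (nS m n τ) = (∏ k : Fin m, sc (u k)) *
      ∑ y : Fin m → Fin 4 → Bool, if ∀ v < n, ((τ v).toNat +
        #{h : Fin m × Fin 4 | s (4 * h.1 + h.2) = v ∧ y h.1 h.2}) % 2 = 0 then
          ∏ k : Fin m, u k (num (y k)) else 0 := by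
  rw [haf_add (sy_comm _) (sy_comm _), mul_sum]
  symm
  refine sum_of_injOn (tS n τ) (fun y _ y' _ h => ?_) (fun y _ => mem_powerset.2 (filter_subset _ _))
    (fun T hT h => ?_) fun y _ => ?_
  · funext k i
    have h1 : ∀ z : Fin m → Fin 4 → Bool, ((k, 0, i) : V3) ∈ tS n τ z ↔ z k i = false := fun z => by
      simp only [tS, mem_filter, mem_nS, ex_val]
      exact ⟨fun h => h.2.2, fun h => ⟨Or.inl ⟨by omega, k.2, trivial⟩, by omega, h⟩⟩
    have := h1 y
    rw [h, h1] at this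
    rcases h2 : y k i with _ | _ <;> rcases h3 : y' k i with _ | _ <;> simp_all
  · rw [mem_powerset] at hT
    by_contra h0
    obtain ⟨h1, h2⟩ := mul_ne_zero_iff.1 h0
    have a1 : ∀ x ∈ T, x.2.2 < 6 := fun x hx => by
      by_contra h3
      exact h1 (haf_zero (sy_comm _) hx fun y _ _ => by simp [sy, dG, h3])
    have a2 : ∀ x ∈ nS m n τ, x ∉ T → x.2.2 < 6 → x.2.2 < 4 := fun x hx hx' h3 => by
      by_contra h4
      exact h2 (haf_zero (sy_comm _) (mem_sdiff.2 ⟨hx, hx'⟩) fun y _ _ => by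
        simp [sy, dC, h4, h3.ne])
    refine h ⟨fun (k : Fin m) (i : Fin 4) => decide (((k.1, 0, i.1) : V3) ∉ T),
      mem_coe.2 (mem_univ _), ?_⟩
    ext ⟨a, b, c⟩
    simp only [tS, mem_filter]
    constructor
    · rintro ⟨h3, h4, h5⟩
      by_contra h6
      have h7 := a2 _ h3 h6 h4
      rw [mem_nS] at h3
      dsimp only at h3 h4 h7
      obtain ⟨h8, rfl⟩ : a < m ∧ b = 0 := by omega
      rw [ex, dif_pos ⟨h8, h7⟩] at h5
      exact h6 (by simpa using h5)
    · intro h3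
      have h4 := a1 _ h3
      have h5 := hT h3
      refine ⟨h5, h4, ?_⟩
      rw [mem_nS] at h5
      dsimp only at h4 h5
      obtain rfl : b = 0 := by omega
      rw [ex]
      split_ifs
      · simpa using h3
      · rfl
  · rw [haf_tS, haf_cS τ hs]
    simp only [yS_eq, card_map, mul_ite, mul_zero]
    refine if_congr Iff.rfl ?_ rfl
    rw [← prod_mul_distrib, ← prod_mul_distrib]
    exact prod_congr rfl fun k _ => (haf_gate (hu k k.2).1 (hu k k.2).2 _).symm

end Vale.Agent.N308H
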