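import Vale.Agent.N308S.Gad

/-!
Hafnians: blocks, sums of two weights, the parity chain, and the gadget for a four-legged gate.
-/

namespace Vale.Agent.N308H

open Finset Vale.Agent.N308S

section basic

variable {V : Type} [DecidableEq V] {w : V → V → ℕ}

theorem haf_zero (hw : ∀ a b, w a b = w b a) {S : Finset V} {x : V} (hx : x ∈ S)
    (h : ∀ y ∈ S, y ≠ x → w x y = 0) : haf w S = 0 := by
  rw [haf_exp hw hx]
  exact sum_eq_zero fun y hy => by rw [h y (mem_of_mem_erase hy) (ne_of_mem_erase hy), zero_mul]

theorem haf_one (hw : ∀ a b, w a b = w b a) {S : Finset V} {x y : V} (hx : x ∈ S) (hy : y ∈ S)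
    (hxy : y ≠ x) (h : ∀ z ∈ S, z ≠ x → z ≠ y → w x z = 0) :
    haf w S = w x y * haf w ((S.erase x).erase y) := by
  rw [haf_exp hw hx]
  exact sum_eq_single_of_mem y (mem_erase.2 ⟨hxy, hy⟩) fun z hz h' => by
    rw [h z (mem_of_mem_erase hz) (ne_of_mem_erase hz) h', zero_mul]

theorem haf_two (hw : ∀ a b, w a b = w b a) {S : Finset V} {x y y' : V} (hx : x ∈ S) (hy : y ∈ S)
    (hy' : y' ∈ S) (hxy : y ≠ x) (hxy' : y' ≠ x) (hne : y ≠ y')
    (h : ∀ z ∈ S, z ≠ x → z ≠ y → z ≠ y' → w x z = 0) :
    haf w S = w x y * haf w ((S.erase x).erase y) + w x y' * haf w ((S.erase x).erase y') := by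
  rw [haf_exp hw hx]
  exact sum_eq_add_of_mem y y' (mem_erase.2 ⟨hxy, hy⟩) (mem_erase.2 ⟨hxy', hy'⟩) hne
    fun z hz h' => by rw [h z (mem_of_mem_erase hz) (ne_of_mem_erase hz) h'.1 h'.2, zero_mul]

theorem haf_union (hw : ∀ a b, w a b = w b a) {A B : Finset V} (hd : Disjoint A B)
    (h : ∀ a ∈ A, ∀ b ∈ B, w a b = 0) : haf w (A ∪ B) = haf w A * haf w B := by
  induction hn : A.card using Nat.strong_induction_on generalizing A with
  | _ n ih =>
    rcases A.eq_empty_or_nonempty with rfl | ⟨x, hx⟩
    · rw [empty_union, haf_empty, one_mul]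
    have h1 : x ∉ B := disjoint_left.1 hd hx
    rw [haf_exp hw (mem_union_left B hx), haf_exp hw hx, erase_union_distrib, erase_eq_of_notMem h1,
      sum_union (hd.mono_left (erase_subset _ _)),
      sum_eq_zero (s := B) fun y hy => by rw [h x hx y hy, zero_mul], add_zero, sum_mul]
    refine sum_congr rfl fun y hy => ?_
    have h2 : (A.erase x).erase y ⊆ A := (erase_subset _ _).trans (erase_subset _ _)
    rw [erase_union_distrib, erase_eq_of_notMem (disjoint_left.1 hd (mem_of_mem_erase hy)),
      ih _ (hn ▸ card_ee hx y) (hd.mono_left h2) (fun a ha => h a (h2 ha)) rfl, mul_assoc]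

theorem haf_fiber (hw : ∀ a b, w a b = w b a) {ι : Type} [DecidableEq ι] (g : V → ι) (I : Finset ι)
    {S : Finset V} (hI : ∀ a ∈ S, g a ∈ I) (h : ∀ a ∈ S, ∀ b ∈ S, g a ≠ g b → w a b = 0) :
    haf w S = ∏ i ∈ I, haf w (S.filter fun a => g a = i) := by
  induction I using Finset.induction_on generalizing S with
  | empty =>
    obtain rfl : S = ∅ := eq_empty_of_forall_notMem fun a ha => by simpa using hI a ha
    rw [haf_empty, prod_empty]
  | insert i I hi ih =>
    have e := haf_union hw (disjoint_filter_filter_not S S fun a => g a = i) fun a ha b hb => by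
      rw [mem_filter] at ha hb
      exact h a ha.1 b hb.1 fun e => hb.2 (e ▸ ha.2)
    rw [filter_union_filter_not_eq] at e
    rw [prod_insert hi, e, ih (S := S.filter fun a => ¬g a = i)]
    · congr 1
      refine prod_congr rfl fun j hj => ?_
      rw [filter_filter]
      congr 1
      refine filter_congr fun a _ => ⟨fun h => h.2, fun h => ⟨fun h' => hi ?_, h⟩⟩
      rwa [← h', h]
    · intro a ha
      rw [mem_filter] at ha
      exact (mem_insert.1 (hI a ha.1)).resolve_left ha.2
    · exact fun a ha b hb => h a (mem_filter.1 ha).1 b (mem_filter.1 hb).1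

theorem sum_compl' (S : Finset V) (f : Finset V → Finset V → ℕ) :
    ∑ T ∈ S.powerset, f T (S \ T) = ∑ T ∈ S.powerset, f (S \ T) T :=
  sum_nbij' (fun T => S \ T) (fun T => S \ T) (fun _ _ => mem_powerset.2 sdiff_subset)
    (fun _ _ => mem_powerset.2 sdiff_subset)
    (fun _ h => Finset.sdiff_sdiff_eq_self (mem_powerset.1 h))
    (fun _ h => Finset.sdiff_sdiff_eq_self (mem_powerset.1 h))
    fun _ h => by rw [Finset.sdiff_sdiff_eq_self (mem_powerset.1 h)]

theorem add_aux (w' : V → V → ℕ) (hw : ∀ a b, w a b = w b a) {S : Finset V} {x : V} (hx : x ∉ S) :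
    ∑ T ∈ S.powerset, haf w' T * haf w (insert x (S \ T)) =
      ∑ y ∈ S, w x y * ∑ T ∈ (S.erase y).powerset, haf w' T * haf w (S.erase y \ T) := by
  have h1 : ∀ T ∈ S.powerset, haf w' T * haf w (insert x (S \ T)) =
      ∑ y ∈ S \ T, w x y * (haf w' T * haf w (S.erase y \ T)) := fun T _ => by
    rw [haf_exp hw (mem_insert_self x _), erase_insert fun h => hx (mem_sdiff.1 h).1, mul_sum]
    refine sum_congr rfl fun y _ => ?_
    rw [erase_sdiff_comm, mul_left_comm]
  rw [sum_congr rfl h1]
  simp only [mul_sum]
  refine sum_comm' fun T y => ?_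
  simp only [mem_powerset, mem_sdiff, subset_erase]
  tauto

theorem haf_add {w' : V → V → ℕ} (hw : ∀ a b, w a b = w b a) (hw' : ∀ a b, w' a b = w' b a)
    (S : Finset V) : haf (fun a b => w a b + w' a b) S =
      ∑ T ∈ S.powerset, haf w T * haf w' (S \ T) := by
  refine haf_unique (G := fun S => ∑ T ∈ S.powerset, haf w T * haf w' (S \ T))
    (by simp [haf_empty]) (fun S x hx => ?_) S
  obtain ⟨S, h, rfl⟩ : ∃ S', x ∉ S' ∧ S = insert x S' :=
    ⟨S.erase x, notMem_erase _ _, (insert_erase hx).symm⟩
  rw [erase_insert h, sum_powerset_insert h]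
  have h1 : ∑ T ∈ S.powerset, haf w T * haf w' (insert x S \ T) =
      ∑ T ∈ S.powerset, haf w T * haf w' (insert x (S \ T)) :=
    sum_congr rfl fun T hT => by
      rw [insert_sdiff_of_notMem _ fun h' => h (mem_powerset.1 hT h')]
  have h2 : ∑ T ∈ S.powerset, haf w (insert x T) * haf w' (insert x S \ insert x T) =
      ∑ T ∈ S.powerset, haf w' T * haf w (insert x (S \ T)) := by
    rw [sum_compl' S fun T U => haf w' T * haf w (insert x U)]
    refine sum_congr rfl fun T _ => ?_
    rw [insert_sdiff_insert, sdiff_insert_of_notMem h, mul_comm]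
  rw [h1, h2, add_aux w hw' h, add_aux w' hw h, ← sum_add_distrib]
  refine sum_congr rfl fun y _ => ?_
  rw [sum_compl' (S.erase y) fun T U => haf w' T * haf w U, add_mul, add_comm]
  simp only [mul_comm (haf w' _)]

/-- the hafnian of a list, by expansion at the first element -/
def hafL (w : V → V → ℕ) : ℕ → List V → ℕ
  | _, [] => 1
  | 0, _ :: _ => 0
  | n + 1, a :: l => (l.map fun b => w a b * hafL w n (l.erase b)).sum

theorem haf_eq_hafL (hw : ∀ a b, w a b = w b a) (n : ℕ) (l : List V) (hl : l.Nodup)
    (hn : l.length ≤ n) : haf w l.toFinset = hafL w n l := by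
  induction n generalizing l with
  | zero =>
    obtain rfl : l = [] := List.length_eq_zero_iff.1 (by omega)
    exact haf_empty w
  | succ n ih =>
    rcases l with _ | ⟨a, l⟩
    · exact haf_empty w
    rw [List.nodup_cons] at hl
    rw [List.toFinset_cons, haf_exp hw (mem_insert_self _ _),
      erase_insert (by simpa using hl.1), hafL, List.sum_toFinset _ hl.2]
    congr 1
    refine List.map_congr_left fun b _ => ?_
    rw [← ih _ (hl.2.erase b) (List.length_erase_le.trans (by simpa using hn))]
    congr 2
    ext c
    simp [hl.2.mem_erase_iff]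

end basic

/-! ### The parity chain -/

/-- `(q, false)` is a link of the chain, `(h, true)` is a leg -/
def cd (μ : ℕ → ℕ) (x y : ℕ × Bool) : ℕ :=
  if y.2 then 0 else if x.2 then (if y.1 = x.1 ∨ y.1 = x.1 + 1 then μ x.1 else 0)
    else if y.1 = x.1 + 1 then 1 else 0

/-- the part of the chain from the position `p` on -/
def cS (H : ℕ) (Y : Finset ℕ) (p : ℕ) (b : Bool) : Finset (ℕ × Bool) :=
  (range (H + 1) ×ˢ univ).filter fun x =>
    if x.2 then x.1 ∈ Y ∧ p ≤ x.1 else p < x.1 ∨ (x.1 = p ∧ b)

theorem mem_cS {H : ℕ} {Y : Finset ℕ} {p : ℕ} {b : Bool} {x : ℕ × Bool} : x ∈ cS H Y p b ↔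
    x.1 ≤ H ∧ (x.2 = true ∧ x.1 ∈ Y ∧ p ≤ x.1 ∨ x.2 = false ∧ (p < x.1 ∨ (x.1 = p ∧ b = true))) := by
  rcases x with ⟨q, _ | _⟩ <;> simp [cS]

theorem haf_chain (μ : ℕ → ℕ) {H : ℕ} {Y : Finset ℕ} (hY : ∀ h ∈ Y, h < H) (d : ℕ) :
    ∀ (p : ℕ) (b : Bool), p + d = H → haf (sy (cd μ)) (cS H Y p b) =
      if (b.toNat + d + #(Y.filter (p ≤ ·))) % 2 = 0 then ∏ h ∈ Y.filter (p ≤ ·), μ h else 0 := by
  induction d with
  | zero =>
    intro p b hp
    have h1 : Y.filter (p ≤ ·) = ∅ := filter_eq_empty_iff.2 fun h hh => by
      have := hY h hh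
      omega
    rw [h1]
    cases b
    · have : cS H Y p false = ∅ := eq_empty_of_forall_notMem fun x hx => by
        rcases mem_cS.1 hx with ⟨h2, h3 | h3⟩
        · have := hY _ h3.2.1
          omega
        · simp at h3
          omega
      simp [this, haf_empty]
    · rw [haf_zero (sy_comm _) (x := (p, false)) (by simp [mem_cS]; omega)]
      · simp
      rintro ⟨q, c⟩ hy h2
      rcases mem_cS.1 hy with ⟨h3, ⟨h4, h5, h6⟩ | ⟨h4, h5⟩⟩
      · have := hY _ h5
        dsimp only at *
        omega
      · dsimp only at *
        subst h4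
        exact (h2 (by congr 1; omega)).elim
  | succ d ih =>
    intro p b hp
    have i1 := ih (p + 1) true (by omega)
    have i0 := ih (p + 1) false (by omega)
    have a1 : ((p + 1, false) : ℕ × Bool) ∈ cS H Y p b := by simp [mem_cS]; omega
    by_cases hp' : p ∈ Y
    · have h1 : Y.filter (p ≤ ·) = insert p (Y.filter (p + 1 ≤ ·)) := by
        ext h
        simp only [mem_filter, mem_insert]
        constructor
        · rintro ⟨h2, h3⟩
          by_cases h4 : h = p
          · exact Or.inl h4
          · exact Or.inr ⟨h2, by omega⟩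
        · rintro (rfl | h2)
          · exact ⟨hp', le_rfl⟩
          · exact ⟨h2.1, by omega⟩
      have h2 : p ∉ Y.filter (p + 1 ≤ ·) := by simp
      have a2 : ((p, true) : ℕ × Bool) ∈ cS H Y p b := by simp [mem_cS, hp']; omega
      rw [h1, card_insert_of_notMem h2, prod_insert h2]
      cases b
      · rw [haf_one (sy_comm _) a2 a1 (by simp)]
        · have e : ((cS H Y p false).erase (p, true)).erase (p + 1, false) =
              cS H Y (p + 1) false := by
            ext ⟨q, _ | _⟩
            · simp [mem_cS]
              omega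
            · by_cases hq : q ∈ Y <;> simp [mem_cS, hq]
              omega
          have e' : sy (cd μ) (p, true) (p + 1, false) = μ p := by simp [sy, cd]
          rw [e, i0, e', mul_ite, mul_zero]
          simp only [Bool.toNat_false]
          exact if_congr (by omega) rfl rfl
        · rintro ⟨q, _ | _⟩ hz h3 h4
          · simp [mem_cS] at hz h4
            simp [sy, cd]
            omega
          · simp [sy, cd]
      · have a3 : ((p, false) : ℕ × Bool) ∈ cS H Y p true := by simp [mem_cS]; omega
        rw [haf_two (sy_comm _) a3 a2 a1 (by simp) (by simp) (by simp)]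
        · have e : ((cS H Y p true).erase (p, false)).erase (p, true) = cS H Y (p + 1) true := by
            ext ⟨q, _ | _⟩
            · simp [mem_cS]
              omega
            · by_cases hq : q ∈ Y <;> simp [mem_cS, hq]
              omega
          have e' : sy (cd μ) (p, false) (p, true) = μ p := by simp [sy, cd]
          rw [e, i1, haf_zero (sy_comm _) (x := (p, true)) (S := erase _ (p + 1, false))
            (by simp [a2])]
          · rw [e', mul_zero, add_zero, mul_ite, mul_zero]
            simp only [Bool.toNat_true]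
            exact if_congr (by omega) rfl rfl
          · rintro ⟨q, _ | _⟩ hz h3
            · simp [mem_cS] at hz
              simp [sy, cd]
              omega
            · simp [sy, cd]
        · rintro ⟨q, _ | _⟩ hz h3 h4 h5
          · simp [mem_cS] at hz h3 h5
            simp [sy, cd]
            omega
          · simp [mem_cS] at hz h4
            simp [sy, cd]
            omega
    · have h1 : Y.filter (p ≤ ·) = Y.filter (p + 1 ≤ ·) := filter_congr fun h hh => by
        have : h ≠ p := fun e => hp' (e ▸ hh)
        omega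
      have h2 : ∀ q ∈ Y, q ≠ p := fun q hq e => hp' (e ▸ hq)
      rw [h1]
      cases b
      · have e : cS H Y p false = cS H Y (p + 1) true := by
          ext ⟨q, _ | _⟩
          · simp [mem_cS]
            omega
          · simp only [mem_cS]
            have := h2 q
            simp
            intro _ hq
            have := this hq
            omega
        rw [e, i1]
        simp only [Bool.toNat_false, Bool.toNat_true]
        exact if_congr (by omega) rfl rfl
      · have a3 : ((p, false) : ℕ × Bool) ∈ cS H Y p true := by simp [mem_cS]; omega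
        rw [haf_one (sy_comm _) a3 a1 (by simp)]
        · have e : ((cS H Y p true).erase (p, false)).erase (p + 1, false) =
              cS H Y (p + 1) false := by
            ext ⟨q, _ | _⟩
            · simp [mem_cS]
              omega
            · simp only [mem_erase, mem_cS]
              have := h2 q
              simp
              intro _ hq
              have := this hq
              omega
          have e' : sy (cd μ) (p, false) (p + 1, false) = 1 := by
            simp [sy, cd]
            omega
          rw [e, i0, e', one_mul]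
          simp only [Bool.toNat_false, Bool.toNat_true]
          exact if_congr (by omega) rfl rfl
        · rintro ⟨q, _ | _⟩ hz h3 h4
          · simp [mem_cS] at hz h3 h4
            simp [sy, cd]
            omega
          · simp [mem_cS] at hz
            have := h2 q hz.2.1
            simp [sy, cd]
            omega

end Vale.Agent.N308H
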