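import Vale.Agent.N308H.Defs
import Vale.Agent.N308S.Red
import Vale.Agent.N333C.Recode
import Vale.Agent.Lib.PolyTime.Official
import Vale.Agent.Lib.PolyTime.TM2
import Mathlib.Data.ZMod.Basic

/-!
From the typed layer to Mathlib's polynomial time machines with a random word.
-/

namespace Vale.Agent.N308H

open Vale.Agent.Lib.PTM Vale.Agent.Lib.PolyTime Vale.Agent.P308.Poly Vale.Agent.N308S
open Vale.Agent.N333C (dec recode)
open ProbabilityTheory
open scoped NNRat

theorem dec_un {B : Type} (o₀ : Option B) (nxt : Option B → Option B) (w : List Bool) (i : ℕ) :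
    ∀ o, dec o₀ nxt o (List.replicate i true ++ false :: w) =
      (nxt^[i] o).toList ++ dec o₀ nxt o₀ w := by
  induction i with
  | zero => exact fun _ => rfl
  | succ i ih => exact fun o => ih (nxt o)

/-- the words of the tape -/
def raw (l : List (List Bool)) : List Raw := l.map Raw.mk

/-- the letters as bits -/
def ca : Option Bool → List Bool
  | none => [false]
  | some b => [true, b]

theorem enc_raw_list (l : List (List Bool)) : enc (raw l) = (tape l).flatMap ca := by
  induction l with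
  | nil => rfl
  | cons w l ih =>
    have h : ∀ y, pr w y = (w.map some).flatMap ca ++ false :: y := fun y => by
      induction w with
      | nil => rfl
      | cons b w ih => simp [pr, ih, ca]
    rw [raw, List.map_cons, enc_cons, enc_raw, h, ← raw, ih]
    simp [tape, ca]

theorem esize_raw_le (l : List (List Bool)) : esize (raw l) ≤ 2 * (tape l).length := by
  rw [esize, enc_raw_list]
  induction tape l with
  | nil => simp
  | cons a l ih =>
    have : (ca a).length ≤ 2 := by cases a <;> simp [ca]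
    rw [List.flatMap_cons, List.length_append, List.length_cons]
    omega

/-- the next letter -/
def nxt : Option (Option Bool) → Option (Option Bool)
  | some none => some (some false)
  | _ => some (some true)

/-- the number of a letter -/
def idx : Option Bool → ℕ
  | none => 0
  | some false => 1
  | some true => 2

theorem nxt_idx (b : Option Bool) : nxt^[idx b] (some none) = some b := by
  rcases b with _ | _ | _ <;> rfl

theorem machine_of {g : List Raw → ℕ × ℕ} (hg : PT ∅ g) {f : List (List Bool) → ℚ≥0}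
    (h : ∀ y, g (raw y) = ((f y).num, (f y).den)) :
    ∃ M : Turing.TM2ComputableInPolyTime tape (fun q => tape (frac q)) f,
      ∀ k, Finite (M.tm.Γ k) := by
  have h1 : PT ∅ fun y => [(g y).1, (g y).2].flatMap fun a : ℕ =>
      (a.bits.flatMap fun b => bif b then [true, true, false] else [true, false]) ++ [false] :=
    PT.flatMap (f := fun _ (a : ℕ) =>
      (a.bits.flatMap fun b => bif b then [true, true, false] else [true, false]) ++ [false])
      (hg.fst.cons (hg.snd.cons PT.nil))
      ((PT.flatMap (f := fun _ (b : Bool) => bif b then [true, true, false] else [true, false])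
        PT.snd'.natBits (PT.snd'.cond (PT.const _) (PT.const _))).append (PT.const _))
  obtain ⟨G, hG, e⟩ := PT.rawOfList h1
  obtain ⟨M, hM⟩ := exists_tm2_of_polyTimeFun (fun a => enc (raw a)) id
    (fun a => G (enc (raw a))) G (polyTimeFun_iff.2 hG) fun _ => rfl
  obtain ⟨-, -, c, -, hc, -⟩ := hG.elim
  refine recode M hM ca (some none) nxt 2 c (fun a => by cases a <;> simp [ca]) enc_raw_list
    (fun a => ?_) (fun a => hc _) (eval_mono _)
  have h2 : ∀ l : List (Option Bool), dec (some none) nxt (some none)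
      (l.flatMap fun b => List.replicate (idx b) true ++ [false]) = l := fun l => by
    induction l with
    | nil => rfl
    | cons b l ih =>
      rw [List.flatMap_cons, List.append_assoc, List.singleton_append, dec_un, ih, nxt_idx]
      rfl
  rw [id, e, enc_raw]
  dsimp only
  rw [h, ← h2 (tape (frac (f a)))]
  congr 1
  have h3 : ∀ w : List Bool, (w.flatMap fun b => bif b then [true, true, false] else [true, false]) =
      (w.map some).flatMap fun b => List.replicate (idx b) true ++ [false] := fun w => by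
    rw [List.flatMap_map]
    exact List.flatMap_congr fun b _ => by cases b <;> rfl
  simp only [h3, tape, frac, List.flatMap_cons, List.flatMap_nil, List.flatMap_append,
    List.append_nil]
  rfl

theorem real_uniform (m : ℕ) (P : List Bool → Prop) :
    (uniformOn (Set.univ : Set (Fin m → Bool))).real {r | P (List.ofFn r)} = frq m P := by
  classical
  have e : {r : Fin m → Bool | P (List.ofFn r)} =
      ↑(Finset.univ.filter fun r : Fin m → Bool => P (List.ofFn r)) := by simp
  rw [MeasureTheory.measureReal_def, uniformOn_univ, e, MeasureTheory.Measure.count_apply_finset,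
    frq]
  simp

theorem Apx.of_pt {β : Type} [Enc β] {D : β → ℕ} (hD : PT ∅ D) : Apx D :=
  ⟨fun z => D z.1.1, 0, hD.comp PT.fst'.fst, fun x e l m _ _ => by
    dsimp only
    rw [ind_of (by simp; positivity), Ex_const]
    have : (0 : ℝ) ≤ (1 / 2) ^ l := by positivity
    linarith⟩

theorem ratio_ok {a b A B η ε : ℝ} (hA : 0 ≤ A) (hB : 0 ≤ B) (h0 : 0 < η) (h1 : 4 * η ≤ ε)
    (h2 : ε < 1) (ha : |a - A| ≤ A * η) (hb : |b - B| ≤ B * η) :
    (1 - ε) * (A / B) ≤ a / b ∧ a / b ≤ (1 + ε) * (A / B) := by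
  rw [abs_le] at ha hb
  rcases hB.eq_or_lt with rfl | hB
  · obtain rfl : b = 0 := by linarith [hb.1, hb.2]
    simp
  have k0 : 0 < b := by nlinarith [hb.1]
  rw [← mul_div_assoc, ← mul_div_assoc, div_le_div_iff₀ hB k0, div_le_div_iff₀ k0 hB]
  constructor
  · have k1 : (1 - ε) * A * b ≤ (1 - ε) * A * (B * (1 + η)) :=
      mul_le_mul_of_nonneg_left (by linarith [hb.2]) (mul_nonneg (by linarith) hA)
    have k2 : A * (1 - η) * B ≤ a * B := mul_le_mul_of_nonneg_right (by linarith [ha.1]) hB.le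
    have k3 : 0 ≤ A * B * ((1 - η) - (1 - ε) * (1 + η)) :=
      mul_nonneg (mul_nonneg hA hB.le) (by nlinarith)
    nlinarith
  · have k1 : (1 + ε) * A * (B * (1 - η)) ≤ (1 + ε) * A * b :=
      mul_le_mul_of_nonneg_left (by linarith [hb.1]) (mul_nonneg (by linarith) hA)
    have k2 : a * B ≤ A * (1 + η) * B := mul_le_mul_of_nonneg_right (by linarith [ha.2]) hB.le
    have k3 : 0 ≤ A * B * ((1 + ε) * (1 - η) - (1 + η)) :=
      mul_nonneg (mul_nonneg hA hB.le) (by nlinarith)
    nlinarith

theorem Ex_both {m : ℕ} {P Q R : List Bool → Prop} {p : ℝ} (hP : 1 - p ≤ Ex m fun ρ => ind (P ρ))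
    (hQ : 1 - p ≤ Ex m fun ρ => ind (Q ρ)) (h : ∀ ρ, ρ.length = m → P ρ → Q ρ → R ρ) :
    1 - 2 * p ≤ frq m R := by
  have h1 : Ex m (fun ρ => ind (P ρ) + ind (Q ρ) - 1) ≤ Ex m fun ρ => ind (R ρ) :=
    Ex_mono fun ρ hρ => by
      have a1 := ind_le_one (P ρ)
      have a2 := ind_le_one (Q ρ)
      have a3 := ind_nonneg (R ρ)
      by_cases b1 : P ρ
      · by_cases b2 : Q ρ
        · rw [ind_of (h ρ hρ b1 b2)]
          linarith
        · rw [ind_of_not b2]
          linarith
      · rw [ind_of_not b1]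
        linarith
  rw [Ex_sub, Ex_add, Ex_const] at h1
  rw [frq_eq_Ex]
  linarith

/-- the number written in the word number `i` -/
def nat (y : List Raw) (i : ℕ) : ℕ := val (y.getD i ⟨[]⟩).w

theorem pt_nat {β : Type} [Enc β] {y : β → List Raw} {i : β → ℕ} (hy : PT ∅ y) (hi : PT ∅ i) :
    PT ∅ fun x => nat (y x) (i x) := (PT.getD hy hi (PT.const _)).rawVal

theorem num_den_div (a b : ℕ) : (((a : ℚ≥0) / b).num, ((a : ℚ≥0) / b).den) =
    if b = 0 then (0, 1) else (a / Nat.gcd a b, b / Nat.gcd a b) := by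
  split_ifs with h
  · subst h
    simp
  have h1 : (((a : ℚ≥0) / b : ℚ≥0) : ℚ) = mkRat a b := by
    rw [Rat.mkRat_eq_div]
    simp
  have h2 : (((a : ℚ≥0) / b).num : ℤ) = (a / Nat.gcd a b : ℕ) := by
    rw [← NNRat.num_coe, h1, Rat.num_mkRat, if_neg h, Nat.gcd_comm]
    simp
  have h3 : ((a : ℚ≥0) / b).den = b / Nat.gcd a b := by
    rw [← NNRat.den_coe, h1, Rat.den_mkRat, if_neg h, Nat.gcd_comm]
    simp
  rw [h3, Nat.cast_injective h2]

theorem inv_lt' {q : ℚ≥0} (h : 0 < q) : 1 / (q : ℝ) < (q.den / q.num + 1 : ℕ) := by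
  have h1 : 0 < q.num := NNRat.num_pos.2 h
  rw [NNRat.cast_def, one_div_div, div_lt_iff₀ (by exact_mod_cast h1), mul_comm]
  exact_mod_cast Nat.lt_mul_div_succ q.den h1

theorem div_le_inv (q : ℚ≥0) : ((q.den / q.num : ℕ) : ℝ) ≤ 1 / (q : ℝ) := by
  rw [NNRat.cast_def, one_div_div]
  exact Nat.cast_div_le

theorem lt_half {q : ℚ≥0} (h : q < 1 / 2) : (q : ℝ) < 1 / 2 := by
  have := (NNRat.cast_lt (K := ℝ)).2 h
  simpa using this

theorem size_le_log {q : ℚ≥0} (h : 0 < q) (h' : q < 1 / 2) :
    (Nat.size (q.den / q.num) : ℝ) ≤ Real.logb 2 (1 / (q : ℝ)) + 1 := by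
  have h0 : (0 : ℝ) < q := by exact_mod_cast h
  have h1 := lt_half h'
  have h2 : (1 : ℝ) < 1 / q := by rw [lt_div_iff₀ h0]; linarith
  have h3 := Real.logb_pos one_lt_two h2
  rcases Nat.eq_zero_or_pos (Nat.size (q.den / q.num)) with h4 | h4
  · rw [h4]
    simp only [Nat.cast_zero]
    linarith
  have h5 : 2 ^ (Nat.size (q.den / q.num) - 1) ≤ q.den / q.num := Nat.lt_size.1 (by omega)
  have h6 : ((Nat.size (q.den / q.num) - 1 : ℕ) : ℝ) ≤ Real.logb 2 (1 / (q : ℝ)) := by
    rw [Real.le_logb_iff_rpow_le one_lt_two (by linarith), Real.rpow_natCast]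
    exact le_trans (by exact_mod_cast h5) (div_le_inv q)
  rw [Nat.cast_sub h4] at h6
  simp only [Nat.cast_one] at h6
  linarith

/-- **Quotients of approximable counting functions** have approximation schemes. -/
theorem fpras_ratio {ι : Type} {code : ι → List (List Bool)} {Z : ι → ℝ} {A B : List Raw → ℕ}
    (hA : Apx A) (hB : Apx B) (h : ∀ x, Z x = A (raw (code x)) / B (raw (code x))) :
    FPRAS code Z := by
  obtain ⟨fa, ca, pa, ha⟩ := hA
  obtain ⟨fb, cb, pb', hb⟩ := hB
  let r : List Raw → List Bool := fun y => (y.getD 0 ⟨[]⟩).w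
  let inp : List Raw → (List Raw × Un × Un) × List Bool := fun y =>
    ((y.drop 5, ⟨min (4 * (nat y 2 / nat y 1 + 1)) (r y).length⟩,
      ⟨min (Nat.size (nat y 4 / nat y 3) + 1) (r y).length⟩), r y)
  have hr : PT ∅ r := (PT.getD PT.id (PT.const 0) (PT.const _)).listOfRaw
  have hn : ∀ i, PT ∅ fun y => nat y i := fun i => pt_nat PT.id (PT.const i)
  have hu : ∀ {g : List Raw → ℕ}, PT ∅ g → PT ∅ fun y => Un.mk (min (g y) (r y).length) :=
    fun hg => PT.mkUn (hg.min hr.length) ((PBd.length hr).mono fun _ => min_le_right _ _)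
  have hi : PT ∅ inp := ((PT.id.drop (PT.const 5)).pair
    ((hu ((PT.const 4).mul (((hn 2).div (hn 1)).add (PT.const 1)))).pair
      (hu (((hn 4).div (hn 3)).natSize.add (PT.const 1))))).pair hr
  have h1 := pa.comp hi
  have h2 := pb'.comp hi
  obtain ⟨M, hM⟩ := machine_of (f := fun y => (fa (inp (raw y)) : ℚ≥0) / fb (inp (raw y)))
    (PT.ite (h2.eqNat (PT.const 0)) (PT.const (0, 1))
      ((h1.div (h1.gcd h2)).pair (h2.div (h1.gcd h2)))) fun y => (num_den_div _ _).symm
  refine ⟨_, M, 4 * (max ca cb + 1), hM, fun x ε δ e0 e1 d0 d1 m hm => ?_⟩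
  have e2 : (0 : ℝ) < ε := by exact_mod_cast e0
  have e3 : (ε : ℝ) < 1 := by exact_mod_cast e1
  have d2 : (0 : ℝ) < δ := by exact_mod_cast d0
  have d3 := lt_half d1
  set e := 4 * (ε.den / ε.num + 1) with he
  set l := Nat.size (δ.den / δ.num) + 1 with hl
  have k1 : pb (max ca cb + 1) (esize (raw (code x)) + e + l) ≤ m := by
    refine Nat.cast_le.1 (le_trans ?_ hm)
    have a1 : (1 : ℝ) < 1 / ε := by rw [lt_div_iff₀ e2]; linarith
    have a2 : (1 : ℝ) ≤ Real.logb 2 (1 / (δ : ℝ)) := by
      rw [Real.le_logb_iff_rpow_le one_lt_two (by positivity), Real.rpow_one, le_div_iff₀ d2]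
      linarith
    have a3 : (esize (raw (code x)) : ℝ) ≤ 2 * (tape (code x)).length := by
      exact_mod_cast esize_raw_le _
    have a4 := div_le_inv ε
    have a5 := size_le_log d0 d1
    have a6 : (0 : ℝ) ≤ (tape (code x)).length := Nat.cast_nonneg _
    rw [pow_mul, pb, he, hl]
    push_cast
    refine pow_le_pow_left₀ (by positivity) ?_ _
    set μ := ((tape (code x)).length : ℝ) + 1 / (ε : ℝ) + Real.logb 2 (1 / (δ : ℝ)) with hμ
    have b1 : 2 ≤ μ := by linarith
    have b2 : 8 * μ ≤ μ ^ 4 := by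
      have : (8 : ℝ) ≤ μ ^ 3 := le_trans (by norm_num) (pow_le_pow_left₀ (by norm_num) b1 3)
      nlinarith
    linarith
  have k2 : ∀ c ≤ max ca cb, pb c (esize (raw (code x)) + e + l) ≤ m := fun c hc =>
    le_trans (Nat.pow_le_pow_right (by omega) (by omega)) k1
  have k3 : esize (raw (code x)) + e + l ≤ m :=
    le_trans ((Nat.le_add_right _ 2).trans (Nat.le_self_pow (by omega) _)) k1
  have k4 : 2 * (1 / 2 : ℝ) ^ l ≤ δ := by
    have a5 : ((δ.den / δ.num + 1 : ℕ) : ℝ) ≤ 2 ^ Nat.size (δ.den / δ.num) := by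
      exact_mod_cast Nat.lt_size_self _
    have := (one_div_le d2 (by positivity)).1 ((inv_lt' d0).le.trans a5)
    rw [hl, pow_succ, one_div_pow]
    linarith
  have k5 : 4 * (1 / (e : ℝ)) ≤ ε := by
    have := (one_div_le e2 (by positivity)).1 (inv_lt' e0).le
    rw [he, Nat.cast_mul, Nat.cast_ofNat, mul_one_div, ← div_div, div_self (by norm_num)]
    exact this
  rw [real_uniform m fun ρ => (1 - ε : ℝ) * Z x ≤
      (((fa (inp (raw (ρ :: (frac ε ++ frac δ ++ code x)))) : ℚ≥0) /
        fb (inp (raw (ρ :: (frac ε ++ frac δ ++ code x)))) : ℚ≥0) : ℝ) ∧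
      (((fa (inp (raw (ρ :: (frac ε ++ frac δ ++ code x)))) : ℚ≥0) /
        fb (inp (raw (ρ :: (frac ε ++ frac δ ++ code x)))) : ℚ≥0) : ℝ) ≤ (1 + ε) * Z x]
  have k0 : 0 < e := Nat.mul_pos (by norm_num) (Nat.succ_pos _)
  refine le_trans (by linarith) (Ex_both (ha (raw (code x)) e l m k0 (k2 _ (le_max_left _ _)))
    (hb (raw (code x)) e l m k0 (k2 _ (le_max_right _ _))) fun ρ hρ a1 a2 => ?_)
  have k6 : inp (raw (ρ :: (frac ε ++ frac δ ++ code x))) = ((raw (code x), ⟨e⟩, ⟨l⟩), ρ) := by
    simp only [inp, r, nat, raw, frac, List.map_cons, List.cons_append, List.nil_append,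
      List.drop_succ_cons, List.drop_zero, List.getD_cons_succ, List.getD_cons_zero, val_bits]
    rw [min_eq_left (by omega), min_eq_left (by omega)]
  rw [k6, h]
  push_cast
  rw [← mul_one_div] at a1 a2
  exact ratio_ok (Nat.cast_nonneg _) (Nat.cast_nonneg _) (by positivity) k5 e3 a1 a2

end Vale.Agent.N308H
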