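import Vale.Agent.N308H.Master
import Vale.Agent.N308H.Model

/-!
Holant sums with rational weights, for legs which are joined in pairs.
-/

namespace Vale.Agent.N308H

open Finset Vale.Agent.Lib.PTM Vale.Agent.Lib.PolyTime Vale.Agent.P308.Poly Vale.Agent.N308S
open scoped NNRat

/-- the state with the number `a` -/
abbrev st (a : ℕ) : Fin 4 → Bool := fun i => a.testBit i

theorem st_num (y : Fin 4 → Bool) : st (num y) = y := funext (testBit_num y)

theorem num_st : ∀ a < 16, num (st a) = a := by decide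

theorem st_compl : ∀ a < 16, (fun i => !st a i) = st (15 - a) := by decide

theorem sum_st {M : Type} [AddCommMonoid M] (f : (Fin 4 → Bool) → M) :
    ∑ y, f y = ∑ a ∈ range 16, f (st a) :=
  sum_nbij' num st (fun y _ => mem_range.2 (num_lt y)) (fun _ _ => mem_univ _)
    (fun y _ => st_num y) (fun a ha => num_st a (mem_range.1 ha)) fun y _ => by rw [st_num]

theorem gateN_of {w : (Fin 4 → Bool) → ℚ≥0} (h1 : Parity w) (h2 : Balanced w) {V : ℕ → ℕ}
    {D : ℚ≥0} (h : ∀ a < 16, (V a : ℚ≥0) = D * w (st a)) : GateN V := by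
  have k1 : ∀ a ∈ [1, 2, 4, 7, 8, 11, 13, 14], a < 16 ∧ Odd #{i | st a i} := by decide
  have k2 : ∀ a ∈ [0, 3, 5, 6, 9, 10, 12, 15], a < 16 ∧ Even #{i | st a i} := by decide
  refine ⟨h1.imp (fun h1 a ha => ?_) fun h1 a ha => ?_, fun a ha => ?_⟩
  · rw [← Nat.cast_eq_zero (R := ℚ≥0), h a (k1 a ha).1, h1 _ (k1 a ha).2, mul_zero]
  · rw [← Nat.cast_eq_zero (R := ℚ≥0), h a (k2 a ha).1, h1 _ (k2 a ha).2, mul_zero]
  · have h3 := mul_le_mul_of_nonneg_left (h2 (st a)) (zero_le : 0 ≤ D * D)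
    rw [sum_st, mul_sum, st_compl a ha] at h3
    rw [← Nat.cast_le (α := ℚ≥0)]
    push_cast
    rw [h a ha, h _ (by omega), sum_congr rfl fun b hb => by
      rw [h b (mem_range.1 hb), h (15 - b) (by omega), ← st_compl b (mem_range.1 hb),
        mul_mul_mul_comm]]
    refine le_of_eq_of_le ?_ h3
    ring

theorem node_iff {M : ℕ} {e : Fin M × Fin 4 → Fin M × Fin 4} (he : ∀ h, e (e h) = h) {E : ℕ → ℕ}
    (hE : ∀ h : Fin M × Fin 4, E (4 * h.1 + h.2) = 4 * (e h).1 + (e h).2) (o : Bool)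
    (y : Fin M → Fin 4 → Bool) :
    (∀ v < 4 * M + 1, ((o && (decide (v < 4 * M) && decide (v < E v))).toNat +
      #{h : Fin M × Fin 4 | (if E (4 * h.1 + h.2) = 4 * h.1 + h.2 then 4 * M else
        min (4 * h.1 + h.2 : ℕ) (E (4 * h.1 + h.2))) = v ∧ y h.1 h.2}) % 2 = 0) ↔
    (∀ h, e h ≠ h → y (e h).1 (e h).2 = xor (y h.1 h.2) o) ∧
      Even #{h : Fin M × Fin 4 | e h = h ∧ y h.1 h.2} := by
  let nb : Fin M × Fin 4 → ℕ := fun h => 4 * h.1 + h.2
  have n1 : ∀ h, nb h < 4 * M := fun h => by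
    have := h.1.2
    have := h.2.2
    dsimp only [nb]
    omega
  have n2 : ∀ h h', nb h = nb h' → h = h' := fun h h' k => by
    have := h.2.2
    have := h'.2.2
    dsimp only [nb] at k
    exact Prod.ext (Fin.ext (by omega)) (Fin.ext (by omega))
  have n3 : ∀ v < 4 * M, ∃ h, nb h = v := fun v hv =>
    ⟨(⟨v / 4, by omega⟩, ⟨v % 4, by omega⟩), by dsimp only [nb]; omega⟩
  have hE' : ∀ h, E (nb h) = nb (e h) := hE
  change (∀ v < 4 * M + 1, ((o && (decide (v < 4 * M) && decide (v < E v))).toNat +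
    #{h : Fin M × Fin 4 | (if E (nb h) = nb h then 4 * M else min (nb h) (E (nb h))) = v ∧
      y h.1 h.2}) % 2 = 0) ↔ _
  simp only [hE']
  have c1 : #{h : Fin M × Fin 4 | (if nb (e h) = nb h then 4 * M else min (nb h) (nb (e h))) =
      4 * M ∧ y h.1 h.2} = #{h : Fin M × Fin 4 | e h = h ∧ y h.1 h.2} := by
    congr 1
    refine filter_congr fun h _ => and_congr_left fun _ => ?_
    have := n1 h
    split_ifs with k
    · exact iff_of_true rfl (n2 _ _ k)
    · exact iff_of_false (by omega) fun k' => k (by rw [k'])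
  have c2 : ∀ g, nb g < nb (e g) → #{h : Fin M × Fin 4 | (if nb (e h) = nb h then 4 * M else
      min (nb h) (nb (e h))) = nb g ∧ y h.1 h.2} =
      (y g.1 g.2).toNat + (y (e g).1 (e g).2).toNat := fun g hg => by
    have a1 : g ≠ e g := fun k => by rw [← k] at hg; omega
    have a2 : ∀ h, (if nb (e h) = nb h then 4 * M else min (nb h) (nb (e h))) = nb g ↔
        h ∈ ({g, e g} : Finset _) := fun h => by
      rw [mem_insert, mem_singleton]
      refine ⟨fun k => ?_, ?_⟩
      · have := n1 g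
        split_ifs at k
        · omega
        rcases min_eq_iff.1 k with k | k
        · exact Or.inl (n2 _ _ k.1)
        · exact Or.inr (by rw [← n2 _ _ k.1, he])
      · rintro (rfl | rfl)
        · rw [if_neg (by omega), min_eq_left hg.le]
        · rw [he, if_neg (by omega), min_eq_right hg.le]
    simp only [a2]
    rw [← filter_filter, filter_mem_eq_inter, univ_inter, card_filter, sum_pair a1]
    cases y g.1 g.2 <;> cases y (e g).1 (e g).2 <;> rfl
  have c3 : ∀ g, ¬ nb g < nb (e g) → #{h : Fin M × Fin 4 | (if nb (e h) = nb h then 4 * M else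
      min (nb h) (nb (e h))) = nb g ∧ y h.1 h.2} = 0 := fun g hg => by
    rw [card_eq_zero, filter_eq_empty_iff]
    rintro h - ⟨k, -⟩
    have := n1 g
    split_ifs at k with k'
    · omega
    rcases min_eq_iff.1 k with k | k
    · rw [n2 _ _ k.1] at k' k
      omega
    · have a1 : h = e g := by rw [← n2 _ _ k.1, he]
      rw [a1, he] at k' k
      omega
  have c4 : ∀ g, nb g < nb (e g) → (((o && (decide (nb g < 4 * M) &&
      decide (nb g < nb (e g)))).toNat + ((y g.1 g.2).toNat + (y (e g).1 (e g).2).toNat)) % 2 = 0 ↔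
      y (e g).1 (e g).2 = xor (y g.1 g.2) o) := fun g hg => by
    rw [decide_eq_true hg, decide_eq_true (n1 g)]
    cases y g.1 g.2 <;> cases y (e g).1 (e g).2 <;> cases o <;> decide
  constructor
  · intro H
    have a1 : ∀ g, nb g < nb (e g) → y (e g).1 (e g).2 = xor (y g.1 g.2) o := fun g hg => by
      have := H (nb g) (by have := n1 g; omega)
      rwa [c2 g hg, hE', c4 g hg] at this
    refine ⟨fun h hh => ?_, ?_⟩
    · rcases lt_trichotomy (nb h) (nb (e h)) with k | k | k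
      · exact a1 h k
      · exact absurd (n2 _ _ k).symm hh
      · have := a1 (e h) (by rwa [he])
        rw [he] at this
        rw [this]
        cases y (e h).1 (e h).2 <;> cases o <;> rfl
    · have := H (4 * M) (by omega)
      rw [c1] at this
      simpa [Nat.even_iff] using this
  · rintro ⟨H1, H2⟩ v hv
    by_cases k : v = 4 * M
    · rw [k, c1]
      simpa [Nat.even_iff] using H2
    obtain ⟨g, rfl⟩ := n3 v (by omega)
    rw [hE']
    by_cases hg : nb g < nb (e g)
    · rw [c2 g hg, c4 g hg]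
      exact H1 g fun k => by rw [k] at hg; omega
    · rw [c3 g hg, decide_eq_false hg]
      simp

theorem exists_den {de : List Raw → ℕ → ℕ → ℕ}
    (hde : PT ∅ fun p : List Raw × ℕ × ℕ => de p.1 p.2.1 p.2.2) :
    ∃ D : List Raw → ℕ → ℕ, PT ∅ (fun p : List Raw × ℕ => D p.1 p.2) ∧
      (∀ y v, ∀ a < 16, de y v a ∣ D y v) ∧ ∀ y v, (∀ a < 16, de y v a ≠ 0) → D y v ≠ 0 :=
  ⟨fun y k => ((List.range 16).map (de y k)).prod,
    (PT.map (f := fun (p : List Raw × ℕ) a => de p.1 p.2 a) (PT.const _)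
      (hde.comp (PT.fst'.fst.pair (PT.fst'.snd.pair PT.snd')))).prod,
    fun _ _ _ ha => List.dvd_prod (List.mem_map_of_mem (List.mem_range.2 ha)),
    fun _ _ h => List.prod_ne_zero fun k => by
      obtain ⟨a, ha, k⟩ := List.mem_map.1 k
      exact h a (List.mem_range.1 ha) k⟩

/-- **Gates with rational weights, legs joined in pairs or free.** -/
theorem fpras_pair {ι : Type} {code : ι → List (List Bool)} {Z : ι → ℝ} (o : Bool)
    {m : List Raw → ℕ} (hm : PU m) {E : List Raw → ℕ → ℕ}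
    (hE : PT ∅ fun p : List Raw × ℕ => E p.1 p.2) {nu de : List Raw → ℕ → ℕ → ℕ}
    (hnu : PT ∅ fun p : List Raw × ℕ × ℕ => nu p.1 p.2.1 p.2.2)
    (hde : PT ∅ fun p : List Raw × ℕ × ℕ => de p.1 p.2.1 p.2.2)
    (h : ∀ x, ∃ (M : ℕ) (e : Fin M × Fin 4 → Fin M × Fin 4) (w : Fin M → (Fin 4 → Bool) → ℚ≥0),
      m (raw (code x)) = M ∧ (∀ h, e (e h) = h) ∧
      (∀ h : Fin M × Fin 4, E (raw (code x)) (4 * h.1 + h.2) = 4 * (e h).1 + (e h).2) ∧
      (∀ v, Parity (w v) ∧ Balanced (w v)) ∧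
      (∀ v : Fin M, ∀ a < 16, de (raw (code x)) v a ≠ 0 ∧
        w v (st a) = nu (raw (code x)) v a / de (raw (code x)) v a) ∧
      Z x = ∑ y : Fin M → Fin 4 → Bool with
        (∀ h, e h ≠ h → y (e h).1 (e h).2 = xor (y h.1 h.2) o) ∧
          Even #{h : Fin M × Fin 4 | e h = h ∧ y h.1 h.2}, ∏ v, (w v (y v) : ℝ)) :
    FPRAS code Z := by
  obtain ⟨D, hD, d1, d2⟩ := exists_den hde
  have h4 := (PU.const 4).mul hm
  have h4' : PT ∅ fun p : List Raw × ℕ => 4 * m p.1 := h4.pt.comp PT.fst'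
  have hD' : PT ∅ fun p : List Raw × ℕ × ℕ => D p.1 p.2.1 := hD.comp (PT.fst'.pair PT.snd'.fst)
  have hP : PT ∅ fun y => ((List.range (m y)).map (D y)).prod :=
    (PT.map (f := D) (PT.range hm.pt hm.bd) hD).prod
  obtain ⟨A, B, hA, hB, hAB⟩ := apx_net hm (h4.add (PU.const 1))
    (s := fun y h => if E y h = h then 4 * m y else min h (E y h))
    (τ := fun y v => o && (decide (v < 4 * m y) && decide (v < E y v)))
    (V := fun y k a => nu y k a * (D y k / de y k a))
    (PT.ite (hE.eqNat PT.snd') h4' (PT.snd'.min hE))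
    ((PT.const o).and ((PT.snd'.lt h4').and (PT.snd'.lt hE))) (hnu.mul (hD'.div hde))
  refine fpras_ratio hA (Apx.of_pt (hB.mul hP)) fun x => ?_
  obtain ⟨M, e, w, rfl, h1, h2, h3, h5, h6⟩ := h x
  generalize raw (code x) = y at *
  have k1 : ∀ v : Fin (m y), ∀ a < 16,
      ((nu y v a * (D y v / de y v a) : ℕ) : ℚ≥0) = D y v * w v (st a) := fun v a ha => by
    have a2 : (de y v a : ℚ≥0) ≠ 0 := Nat.cast_ne_zero.2 (h5 v a ha).1
    rw [(h5 v a ha).2, Nat.cast_mul, Nat.cast_div (d1 y v a ha) a2]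
    field_simp
  have k2 : (∏ v : Fin (m y), (D y v : ℝ)) ≠ 0 := prod_ne_zero_iff.2 fun v _ =>
    Nat.cast_ne_zero.2 (d2 y v fun a ha => (h5 v a ha).1)
  rw [Nat.cast_mul, ← div_div, ← hAB y (fun h hh => by split_ifs <;> omega)
    fun k hk => gateN_of (h3 ⟨k, hk⟩).1 (h3 ⟨k, hk⟩).2 (k1 ⟨k, hk⟩), prod_list_fin, Nat.cast_prod,
    eq_div_iff k2, h6, holN, sum_filter, sum_mul, Nat.cast_sum]
  refine sum_congr rfl fun z _ => ?_
  rw [Nat.cast_ite, ite_mul, zero_mul, Nat.cast_zero, ← prod_mul_distrib, Nat.cast_prod]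
  refine if_congr (node_iff h1 h2 o z).symm (prod_congr rfl fun v _ => ?_) rfl
  have := congrArg (fun q : ℚ≥0 => (q : ℝ)) (k1 v _ (num_lt (z v)))
  rw [st_num] at this
  simpa [mul_comm] using this.symm

end Vale.Agent.N308H
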