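import Vale.Agent.N308H.Gate
import Vale.Agent.N308S.Red

/-!
Normal position of a gate, and the approximation of the sum over a network.
-/

namespace Vale.Agent.N308H

open Finset Vale.Agent.Lib.PTM Vale.Agent.Lib.PolyTime Vale.Agent.P308.Poly Vale.Agent.N308S

/-- the sum over a network with natural weights -/
def holN (m n : ℕ) (s : ℕ → ℕ) (τ : ℕ → Bool) (V : ℕ → ℕ → ℕ) : ℕ :=
  ∑ y : Fin m → Fin 4 → Bool, if ∀ v < n, ((τ v).toNat +
    #{h : Fin m × Fin 4 | s (4 * h.1 + h.2) = v ∧ y h.1 h.2}) % 2 = 0 then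
      ∏ k : Fin m, V k (num (y k)) else 0

/-- the table vanishes on the odd states or on the even states -/
def Par (V : ℕ → ℕ) : Prop :=
  (∀ a ∈ [1, 2, 4, 7, 8, 11, 13, 14], V a = 0) ∨ ∀ a ∈ [0, 3, 5, 6, 9, 10, 12, 15], V a = 0

/-- gates with natural weights -/
def GateN (V : ℕ → ℕ) : Prop :=
  Par V ∧ ∀ a < 16, 4 * (V a * V (15 - a)) ≤ ∑ b ∈ range 16, V b * V (15 - b)

/-- the exchange of the legs `1` and `c / 16` -/
def pm (c i : ℕ) : ℕ := if i = 1 then c / 16 else if i = c / 16 then 1 else i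

/-- one bit of the new state -/
def bt (c a i : ℕ) : ℕ := if a.testBit (pm c i) = c.testBit i then 1 else 0

/-- the change of states -/
def ix (c a : ℕ) : ℕ := bt c a 0 + 2 * bt c a 1 + 4 * bt c a 2 + 8 * bt c a 3

theorem ev_iff {V : ℕ → ℕ} : Ev V ↔ ∀ a ∈ [1, 2, 4, 7, 8, 11, 13, 14], V a = 0 := by simp [Ev]

theorem ev_ix {V : ℕ → ℕ} (h : Par V) {c : ℕ} (hc : c < 64) (h0 : 0 < V (ix c 15)) :
    Ev fun a => V (ix c a) := by
  have key : ∀ c < 64, ix c 15 ∉ [1, 2, 4, 7, 8, 11, 13, 14] → ∀ a ∈ [1, 2, 4, 7, 8, 11, 13, 14],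
      ix c a ∈ [1, 2, 4, 7, 8, 11, 13, 14] := by decide
  have key' : ∀ c < 64, ix c 15 ∉ [0, 3, 5, 6, 9, 10, 12, 15] → ∀ a ∈ [1, 2, 4, 7, 8, 11, 13, 14],
      ix c a ∈ [0, 3, 5, 6, 9, 10, 12, 15] := by decide
  rw [ev_iff]
  rcases h with h | h
  · exact fun a ha => h _ (key c hc (fun h1 => h0.ne' (h _ h1)) a ha)
  · exact fun a ha => h _ (key' c hc (fun h1 => h0.ne' (h _ h1)) a ha)

theorem exists_good {V : ℕ → ℕ} (h : GateN V) {a₀ : ℕ} (ha₀ : a₀ < 16) (h0 : V a₀ ≠ 0) :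
    ∃ c < 64, Good fun a => V (ix c a) := by
  obtain ⟨z, hz, h1, h2⟩ : ∃ z < 16, 0 < V z ∧ ∀ a < 16, V a * V (15 - a) ≤ V z * V (15 - z) := by
    obtain ⟨z, hz, h1⟩ := exists_max_image (range 16) (fun a => V a * V (15 - a)) ⟨0, by simp⟩
    rcases Nat.eq_zero_or_pos (V z) with h2 | h2
    · refine ⟨a₀, ha₀, Nat.pos_of_ne_zero h0, fun a ha => ?_⟩
      have := h1 a (mem_range.2 ha)
      rw [h2, zero_mul] at this
      omega
    · exact ⟨z, mem_range.1 hz, h2, fun a ha => h1 a (mem_range.2 ha)⟩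
  have k1 : ∀ z < 16, ix (z + 16) 15 = z ∧ (∀ a < 16, ix (z + 16) a < 16 ∧
      ix (z + 16) (15 - a) = 15 - ix (z + 16) a) ∧
      ((List.range 16).map (ix (z + 16))).Perm (List.range 16) := by decide
  have k2 : ∀ z < 16, [15, 0, 12, 3, 10, 5, 6, 9].map (ix (z + 32)) =
      [15, 0, 10, 5, 12, 3, 6, 9].map (ix (z + 16)) ∧ [15, 0, 12, 3, 10, 5, 6, 9].map (ix (z + 48)) =
      [15, 0, 6, 9, 10, 5, 12, 3].map (ix (z + 16)) := by decide
  obtain ⟨a1, a2, a3⟩ := k1 z hz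
  have a4 := ev_ix h.1 (c := z + 16) (by omega) (by rwa [a1])
  have a5 : ∑ b ∈ range 16, V b * V (15 - b) =
      ∑ b ∈ range 16, V (ix (z + 16) b) * V (ix (z + 16) (15 - b)) := by
    have := (a3.map fun b => V b * V (15 - b)).sum_eq
    rw [List.map_map] at this
    exact this.symm.trans (sum_congr rfl fun b hb => by rw [(a2 b (mem_range.1 hb)).2]; rfl :
      ∑ b ∈ range 16, ((fun b => V b * V (15 - b)) ∘ ix (z + 16)) b = _)
  have a6 : ∀ a < 16, V (ix (z + 16) a) * V (ix (z + 16) (15 - a)) ≤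
      V (ix (z + 16) 15) * V (ix (z + 16) 0) := fun a ha => by
    rw [(a2 a ha).2, ← Nat.sub_self 15, (a2 15 (by norm_num)).2, a1]
    exact h2 _ (a2 a ha).1
  have a7 := h.2 z hz
  have a8 : V z * V (15 - z) = V (ix (z + 16) 15) * V (ix (z + 16) 0) := by
    rw [← Nat.sub_self 15, (a2 15 (by norm_num)).2, a1]
  rw [a5, a8] at a7
  rw [← a1] at h1
  obtain ⟨b2, b3⟩ := k2 z hz
  simp only [List.map_cons, List.map_nil, List.cons.injEq, and_true] at b2 b3
  have c1 := a6 12 (by norm_num)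
  have c2 := a6 10 (by norm_num)
  have c3 := a6 6 (by norm_num)
  obtain ⟨e1, e2, e4, e7, e8, e11, e13, e14⟩ := a4
  simp only [sum_range_succ, sum_range_zero, Nat.reduceSub, e1, e2, e4, e7, e8, e11, e13, e14,
    mul_zero, add_zero, zero_add, tsub_zero, mul_comm (V (ix (z + 16) 0)),
    mul_comm (V (ix (z + 16) 3)), mul_comm (V (ix (z + 16) 5)), mul_comm (V (ix (z + 16) 9))]
    at a7 c1 c2 c3
  by_cases d1 : V (ix (z + 16) 12) * V (ix (z + 16) 3) ≤ V (ix (z + 16) 10) * V (ix (z + 16) 5) ∧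
      V (ix (z + 16) 12) * V (ix (z + 16) 3) ≤ V (ix (z + 16) 6) * V (ix (z + 16) 9)
  · refine ⟨z + 16, by omega, ?_⟩
    simp only [Good, gD]
    omega
  by_cases d2 : V (ix (z + 16) 10) * V (ix (z + 16) 5) ≤ V (ix (z + 16) 6) * V (ix (z + 16) 9)
  · refine ⟨z + 32, by omega, ?_⟩
    simp only [Good, gD, b2]
    omega
  · refine ⟨z + 48, by omega, ?_⟩
    simp only [Good, gD, b3]
    omega

/-- the choice of the normal position -/
def ch (V : ℕ → ℕ) : ℕ :=
  ((List.range 64).find? fun c => decide (Good fun a => V (ix c a))).getD 0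

theorem ch_lt (V : ℕ → ℕ) : ch V < 64 := by
  unfold ch
  rcases h : (List.range 64).find? fun c => decide (Good fun a => V (ix c a)) with _ | c
  · simp
  · simpa using List.mem_of_find?_eq_some h

theorem ch_good {V : ℕ → ℕ} (h : GateN V) {a₀ : ℕ} (ha₀ : a₀ < 16) (h0 : V a₀ ≠ 0) :
    Good fun a => V (ix (ch V) a) := by
  obtain ⟨c, hc, h1⟩ := exists_good h ha₀ h0
  unfold ch
  rcases h2 : (List.range 64).find? fun c => decide (Good fun a => V (ix c a)) with _ | c'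
  · exact absurd (List.find?_eq_none.1 h2 c (List.mem_range.2 hc)) (by simpa using h1)
  · simpa using List.find?_some h2

/-- the exchange of legs -/
def rho (c : ℕ) (i : Fin 4) : Fin 4 := ⟨pm c i % 4, Nat.mod_lt _ (by norm_num)⟩

theorem rho_spec : ∀ c < 64, ∀ i : Fin 4, (rho c i : ℕ) = pm c i ∧ rho c (rho c i) = i := by decide

theorem testBit_num : ∀ (y : Fin 4 → Bool) (i : Fin 4), (num y).testBit i = y i := by decide

theorem num_lt : ∀ y : Fin 4 → Bool, num y < 16 := by decide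

/-- the change of states -/
def phi (c : ℕ) (y : Fin 4 → Bool) (i : Fin 4) : Bool := y (rho c i) == c.testBit i

theorem ix_num {c : ℕ} (hc : c < 64) (y : Fin 4 → Bool) : ix c (num y) = num (phi c y) := by
  have h : ∀ i : Fin 4, bt c (num y) i = (phi c y i).toNat := fun i => by
    rw [bt, ← (rho_spec c hc i).1, testBit_num, phi]
    cases y (rho c i) <;> cases c.testBit i <;> rfl
  exact congrArg₂ (· + ·) (congrArg₂ (· + ·) (congrArg₂ (· + ·) (h 0) (congrArg _ (h 1)))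
    (congrArg _ (h 2))) (congrArg _ (h 3))

theorem phi_inj {c : ℕ} (hc : c < 64) : Function.Injective (phi c) := fun y y' h => by
  funext i
  have := congrFun h (rho c i)
  rw [phi, phi, (rho_spec c hc i).2] at this
  revert this
  cases y i <;> cases y' i <;> cases c.testBit (rho c i) <;> simp

theorem card_parity {ι : Type} [Fintype ι] (p : ι → Prop) [DecidablePred p] (a b : ι → Bool) :
    (#{h | p h ∧ (a h == b h) = true} + #{h | p h ∧ a h = true} + #{h | p h ∧ b h = false}) % 2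
      = 0 := by
  rw [card_filter, card_filter, card_filter, ← sum_add_distrib, ← sum_add_distrib]
  refine Nat.mod_eq_zero_of_dvd (dvd_sum fun h _ => ?_)
  by_cases h1 : p h
  · cases a h <;> cases b h <;> simp [h1]
  · simp [h1]

/-- the nodes of the exchanged legs -/
def sN (s : ℕ → ℕ) (c : ℕ → ℕ) (h : ℕ) : ℕ := s (4 * (h / 4) + pm (c (h / 4)) (h % 4))

/-- the new parities -/
def tN (m : ℕ) (s : ℕ → ℕ) (τ : ℕ → Bool) (c : ℕ → ℕ) (v : ℕ) : Bool :=
  decide (((τ v).toNat + ((List.range (4 * m)).filter fun h =>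
    decide (s h = v) && !(c (h / 4)).testBit (h % 4)).length) % 2 = 1)

theorem holN_norm (m n : ℕ) (s : ℕ → ℕ) (τ : ℕ → Bool) (V : ℕ → ℕ → ℕ) {c : ℕ → ℕ}
    (hc : ∀ k, c k < 64) : holN m n (sN s c) (tN m s τ c) (fun k a => V k (ix (c k) a)) =
      holN m n s τ V := by
  refine Fintype.sum_bijective (fun (y : Fin m → Fin 4 → Bool) (k : Fin m) => phi (c k) (y k))
    (Finite.injective_iff_bijective.1 fun y y' h => funext fun k => phi_inj (hc k) (congrFun h k))
    _ _ fun y => ?_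
  refine if_congr (forall₂_congr fun v _ => ?_) 
    (prod_congr rfl fun k _ => congrArg (V k) (ix_num (hc k) _)) rfl
  have h1 := card_parity (fun h : Fin m × Fin 4 => s (4 * h.1 + h.2) = v)
    (fun h => y h.1 (rho (c h.1) h.2)) fun h => (c h.1).testBit h.2
  have h2 : #{h : Fin m × Fin 4 | sN s c (4 * h.1 + h.2) = v ∧ y h.1 h.2} =
      #{h : Fin m × Fin 4 | s (4 * h.1 + h.2) = v ∧ y h.1 (rho (c h.1) h.2) = true} := by
    have a1 : ∀ h : Fin m × Fin 4, sN s c (4 * h.1 + h.2) = s (4 * h.1 + rho (c h.1) h.2) :=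
      fun h => by
        rw [sN, show (4 * (h.1 : ℕ) + h.2) / 4 = h.1 by omega,
          show (4 * (h.1 : ℕ) + h.2) % 4 = h.2 by omega, (rho_spec _ (hc _) _).1]
    refine card_nbij' (fun h => (h.1, rho (c h.1) h.2)) (fun h => (h.1, rho (c h.1) h.2))
      (fun h hh => ?_) (fun h hh => ?_) (fun h _ => ?_) fun h _ => ?_
    · simpa [a1, (rho_spec _ (hc _) _).2] using hh
    · simpa [a1, (rho_spec _ (hc _) _).2] using hh
    · simp [(rho_spec _ (hc _) _).2]
    · simp [(rho_spec _ (hc _) _).2]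
  have h3 : ((List.range (4 * m)).filter fun h =>
      decide (s h = v) && !(c (h / 4)).testBit (h % 4)).length =
      #{h : Fin m × Fin 4 | s (4 * h.1 + h.2) = v ∧ (c h.1).testBit h.2 = false} := by
    have := congrArg card (yS_eq s (fun (k : Fin m) (i : Fin 4) => !(c k).testBit i) v)
    rw [card_map] at this
    simp only [Bool.not_eq_eq_eq_not, Bool.not_true] at this
    rw [← this, ← List.toFinset_card_of_nodup (List.nodup_range.filter _)]
    congr 1
    ext h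
    simp only [yS, List.mem_toFinset, List.mem_filter, List.mem_range, mem_filter, mem_range]
    refine and_congr_right fun hh => ?_
    rw [ex, dif_pos ⟨by omega, by omega⟩]
    simp
  rw [h2, tN, h3]
  simp only [phi]
  have key : ∀ t A B C : ℕ, (C + B + A) % 2 = 0 →
      (((decide ((t + A) % 2 = 1)).toNat + B) % 2 = 0 ↔ (t + C) % 2 = 0) := fun t A B C h => by
    by_cases h4 : (t + A) % 2 = 1
    · rw [decide_eq_true h4, Bool.toNat_true]
      constructor <;> intro <;> omega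
    · rw [decide_eq_false h4, Bool.toNat_false]
      constructor <;> intro <;> omega
  exact key _ _ _ _ h1

/-! ### Polynomial time -/

section pt

variable {γ : Type} [Enc γ] {U : γ → ℕ → ℕ} (hU : ∀ a, PT ∅ fun x => U x a)
include hU

theorem pt_gD : PT ∅ fun x => gD (U x) :=
  ((((hU 12).mul (hU 3)).add ((hU 10).mul (hU 5))).add ((hU 6).mul (hU 9))).sub
    ((hU 15).mul (hU 0))

theorem pt_gR : PT ∅ fun x => gR (U x) := (PT.const 1).max ((hU 10).mul (hU 6)).double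

theorem pt_sc : PT ∅ fun x => sc (U x) := ((hU 15).mul (hU 15)).mul (pt_gR hU)

theorem pt_gm {f : γ → ℕ} (hf : PT ∅ f) : PT ∅ fun x => gm (U x) (f x) :=
  PT.ite (hf.eqNat (PT.const 1)) (pt_gR hU) (hU 15)

theorem pt_gd {f g : γ → ℕ} (hf : PT ∅ f) (hg : PT ∅ g) : PT ∅ fun x => gd (U x) (f x) (g x) := by
  have e : ∀ a b, PT ∅ fun x => decide (f x = a ∧ g x = b) := fun a b =>
    PT.decide_and (hf.eqNat (PT.const a)) (hg.eqNat (PT.const b))
  have r := pt_gR hU
  have d := pt_gD hU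
  exact PT.ite (e 0 1) ((hU 12).mul r) (PT.ite (e 0 4) (hU 15) (PT.ite (e 1 4) d
    (PT.ite (e 2 5) (hU 10) (PT.ite (e 3 5) (hU 6) (PT.ite (e 4 5) (PT.const 1)
      (PT.ite (e 2 3) ((hU 3).mul (hU 15)) (PT.ite (e 1 3) ((r.mul (hU 5)).sub (d.mul (hU 6)))
        (PT.ite (e 1 2) ((r.mul (hU 9)).sub (d.mul (hU 10))) (PT.const 0)))))))))

theorem pt_good : PT ∅ fun x => decide (Good (U x)) :=
  (PT.decide_and ((PT.const 0).lt (hU 15)) (PT.decide_and (((hU 15).mul (hU 0)).le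
    ((((hU 12).mul (hU 3)).add ((hU 10).mul (hU 5))).add ((hU 6).mul (hU 9))))
    (PT.decide_and ((pt_gD hU).le ((hU 10).mul (hU 5)).double)
      ((pt_gD hU).le ((hU 6).mul (hU 9)).double)))).congr fun _ => decide_eq_decide.2 Iff.rfl

omit hU

theorem pt_pm {c i : γ → ℕ} (hc : PT ∅ c) (hi : PT ∅ i) : PT ∅ fun x => pm (c x) (i x) :=
  PT.ite (hi.eqNat (PT.const 1)) (hc.div (PT.const 16))
    (PT.ite (hi.eqNat (hc.div (PT.const 16))) (PT.const 1) hi)

theorem pt_ix {c : γ → ℕ} (hc : PT ∅ c) (a : ℕ) : PT ∅ fun x => ix (c x) a := by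
  have h : ∀ i, PT ∅ fun x => bt (c x) a i := fun i =>
    PT.ite ((((PT.const a).testBit (pt_pm hc (PT.const i))).xor
      (hc.testBit (PT.const i))).not.congr fun x => by
        cases a.testBit (pm (c x) i) <;> cases (c x).testBit i <;> rfl) (PT.const 1) (PT.const 0)
  exact (((h 0).add ((PT.const 2).mul (h 1))).add ((PT.const 4).mul (h 2))).add
    ((PT.const 8).mul (h 3))

end pt

theorem prod_list_fin (f : ℕ → ℕ) (n : ℕ) : ((List.range n).map f).prod = ∏ i : Fin n, f i := by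
  rw [Fin.prod_univ_eq_prod_range]
  induction n with
  | zero => rfl
  | succ n ih => simp [List.range_succ, prod_range_succ, ih]

variable {β : Type} [Enc β]

/-- **Networks of gates.** -/
theorem apx_net {m n : β → ℕ} (hm : PU m) (hn : PU n) {s : β → ℕ → ℕ} {τ : β → ℕ → Bool}
    {V : β → ℕ → ℕ → ℕ} (hs : PT ∅ fun p : β × ℕ => s p.1 p.2)
    (hτ : PT ∅ fun p : β × ℕ => τ p.1 p.2)
    (hV : PT ∅ fun p : β × ℕ × ℕ => V p.1 p.2.1 p.2.2) :
    ∃ A D : β → ℕ, Apx A ∧ PT ∅ D ∧ ∀ y, (∀ h < 4 * m y, s y h < n y) →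
      (∀ k < m y, GateN (V y k)) → (holN (m y) (n y) (s y) (τ y) (V y) : ℝ) = A y / D y := by
  let c : β → ℕ → ℕ := fun y k => ch (V y k)
  let u : β → ℕ → ℕ → ℕ := fun y k a => V y k (ix (c y k) a)
  have hc : PT ∅ fun p : β × ℕ => c p.1 p.2 :=
    (PT.find? (f := fun (p : β × ℕ) c => decide (Good fun a => V p.1 p.2 (ix c a))) (PT.const _)
      (pt_good fun a => hV.comp (PT.fst'.fst.pair (PT.fst'.snd.pair (pt_ix PT.snd' a))))).optGetD
      (PT.const 0)
  have hu : ∀ a, PT ∅ fun p : β × ℕ => u p.1 p.2 a := fun a =>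
    hV.comp (PT.fst'.pair (PT.snd'.pair (pt_ix hc a)))
  have h4 : PT ∅ fun p : β × ℕ => p.2 / 4 := PT.snd'.div (PT.const 4)
  have h4' : PT ∅ fun p : β × ℕ => p.2 % 4 := PT.snd'.mod (PT.const 4)
  have hs' : PT ∅ fun p : β × ℕ => sN (s p.1) (c p.1) p.2 :=
    hs.comp (PT.fst'.pair (((PT.const 4).mul h4).add (pt_pm (hc.comp (PT.fst'.pair h4)) h4')))
  have hH := (PU.const 4).mul hm
  have hτ' : PT ∅ fun p : β × ℕ => tN (m p.1) (s p.1) (τ p.1) (c p.1) p.2 := by
    refine PT.odd (PT.add ((hτ.cond (PT.const 1) (PT.const 0)).congr fun p => by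
      cases τ p.1 p.2 <;> rfl) (PT.length (PT.filter (f := fun (p : β × ℕ) h =>
        decide (s p.1 h = p.2) && !(c p.1 (h / 4)).testBit (h % 4))
        (PT.range (hH.comp PT.fst').pt (hH.comp PT.fst').bd) ?_)))
    exact ((hs.comp (PT.fst'.fst.pair PT.snd')).eqNat PT.fst'.snd).and
      (((hc.comp (PT.fst'.fst.pair (PT.snd'.div (PT.const 4)))).testBit
        (PT.snd'.mod (PT.const 4))).not)
  have x1 : PT ∅ fun z : β × V3 × V3 => z.2.1.1 := PT.snd'.fst.fst
  have x2 : PT ∅ fun z : β × V3 × V3 => z.2.1.2.1 := PT.snd'.fst.snd.fst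
  have x3 : PT ∅ fun z : β × V3 × V3 => z.2.1.2.2 := PT.snd'.fst.snd.snd
  have y1 : PT ∅ fun z : β × V3 × V3 => z.2.2.1 := PT.snd'.snd.fst
  have y2 : PT ∅ fun z : β × V3 × V3 => z.2.2.2.1 := PT.snd'.snd.snd.fst
  have y3 : PT ∅ fun z : β × V3 × V3 => z.2.2.2.2 := PT.snd'.snd.snd.snd
  have hu' : ∀ a, PT ∅ fun z : β × V3 × V3 => u z.1 z.2.1.1 a := fun a =>
    (hu a).comp (PT.fst'.pair x1)
  have hG : PT ∅ fun z : β × V3 × V3 => dG (u z.1) z.2.1 z.2.2 :=
    PT.ite (pt_and (x3.lt (PT.const 6)) (pt_and (y3.lt (PT.const 6)) (x1.eqNat y1)))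
      (pt_gd hu' x3 y3) (PT.const 0)
  have hp := ((PT.const 4).mul x1).add x3
  have hC : PT ∅ fun z : β × V3 × V3 => dC (sN (s z.1) (c z.1)) (u z.1) z.2.1 z.2.2 :=
    PT.ite (y3.eqNat (PT.const 6)) (PT.ite (x3.eqNat (PT.const 6))
      (PT.ite (pt_and (x1.eqNat y1) (y2.eqNat (x2.add (PT.const 1)))) (PT.const 1) (PT.const 0))
      (PT.ite (pt_and (x3.lt (PT.const 4)) (pt_and ((hs'.comp (PT.fst'.pair hp)).eqNat y1)
        (PT.decide_or (y2.eqNat hp) (y2.eqNat (hp.add (PT.const 1)))))) (pt_gm hu' x3)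
        (PT.const 0))) (PT.const 0)
  have hP : PT ∅ fun z : β × V3 =>
      decide (nP (m z.1) (n z.1) (tN (m z.1) (s z.1) (τ z.1) (c z.1)) z.2) :=
    (PT.ite (PT.snd'.snd.snd.lt (PT.const 6)) (pt_and (PT.snd'.fst.lt (hm.pt.comp PT.fst'))
      (PT.snd'.snd.fst.eqNat (PT.const 0))) (((PT.snd'.fst.lt (hn.pt.comp PT.fst')).and
        ((PT.snd'.snd.fst.eqNat (PT.const 0)).not.or
          (hτ'.comp (PT.fst'.pair PT.snd'.fst)))))).congr fun z => by
      unfold nP
      split_ifs <;> simp [imp_iff_not_or]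
  refine ⟨_, fun y => ((List.range (m y)).map fun k => sc (u y k)).prod,
    apx_list (pt_box (hm.add hn) (hH.add (PU.const 1)) 7
      (P := fun y => nP (m y) (n y) (tN (m y) (s y) (τ y) (c y))) hP) (fun _ => nodup_box _ _ _ _)
      (w := fun y a b => sy (dG (u y)) a b + sy (dC (sN (s y) (c y)) (u y)) a b)
      ((pt_sy (d := fun y => dG (u y)) hG).add
        (pt_sy (d := fun y => dC (sN (s y) (c y)) (u y)) hC))
      fun y a b => by rw [sy_comm, sy_comm (dC _ _)],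
    (PT.map (f := fun y k => sc (u y k)) (PT.range hm.pt hm.bd) (pt_sc hu)).prod,
    fun y h1 h2 => ?_⟩
  dsimp only
  rw [prod_list_fin]
  by_cases h0 : ∀ k < m y, ∃ a < 16, V y k a ≠ 0
  · have h3 : ∀ k < m y, Good (u y k) := fun k hk => by
      obtain ⟨a, ha, h⟩ := h0 k hk
      exact ch_good (h2 k hk) ha h
    have h4 : (0 : ℝ) < (∏ k : Fin (m y), sc (u y k) : ℕ) :=
      Nat.cast_pos.2 (prod_pos fun k _ => Nat.mul_pos (Nat.mul_pos (h3 k k.2).1 (h3 k k.2).1)
        (lt_of_lt_of_le one_pos (le_max_left _ _)))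
    rw [toFinset_box, ← nS, haf_net _ (s := sN (s y) (c y)) (fun h hh => h1 _ ?_) fun k hk =>
      ⟨h3 k hk, ev_ix (h2 k hk).1 (ch_lt _) (h3 k hk).1⟩, Nat.cast_mul,
      mul_div_cancel_left₀ _ h4.ne', ← holN_norm _ _ _ _ _ (c := c y) fun k => ch_lt _]
    · rfl
    · have := (rho_spec _ (ch_lt (V y (h / 4))) ⟨h % 4, by omega⟩).1
      have h5 := (rho (ch (V y (h / 4))) ⟨h % 4, by omega⟩).2
      dsimp only [c] at this ⊢
      omega
  · push Not at h0
    obtain ⟨k, hk, h0⟩ := h0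
    have h3 : ∀ c, ix c 15 < 16 := fun c => by
      simp only [ix, bt]
      split_ifs <;> omega
    rw [prod_eq_zero (mem_univ (⟨k, hk⟩ : Fin (m y))) (by simp [sc, u, h0 _ (h3 _)]),
      Nat.cast_zero, div_zero, Nat.cast_eq_zero]
    refine sum_eq_zero fun x _ => ?_
    rw [prod_eq_zero (mem_univ (⟨k, hk⟩ : Fin (m y))) (h0 _ (num_lt _)), ite_self]

end Vale.Agent.N308H
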