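import Vale.Agent.N308H.Defs
import Vale.Agent.N308H.Final

namespace Vale.Agent.N308H.OldEightVertex

open Vale.Agent.N308H
open scoped NNRat

/-- There are fully polynomial randomised approximation schemes for (1) the number of perfect
matchings of an arbitrary finite simple graph, (2) the partition function of the eight-vertex model
on 4-regular graphs, for all weights whose squares are each at most the sum of the other three
squares, (3) Holant sums on 4-regular graphs for all balanced tables with a parity condition,
(4) Holant sums on cubic graphs for all balanced tables. -/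
theorem eightVertex :
    FPRAS (fun G : (n : ℕ) × SimpleGraph (Fin n) => rows G.2)
      (fun G => Nat.card {M : G.2.Subgraph // M.IsPerfectMatching}) ∧
    FPRAS (fun x : Reg 4 × {p : Fin 4 → ℚ≥0 // ∀ i, 2 * p i ^ 2 ≤ ∑ j, p j ^ 2} =>
        (List.ofFn fun i => frac (x.2.1 i)).flatten ++ x.1.code)
      (fun x => x.1.hol true fun _ => eight (x.2.1 0) (x.2.1 1) (x.2.1 2) (x.2.1 3)) ∧
    (∀ o, FPRAS (fun x : (G : Reg 4) ×
        {w : Fin G.m → (Fin 4 → Bool) → ℚ≥0 // ∀ v, Parity (w v) ∧ Balanced (w v)} =>
        x.1.code ++ tables x.2.1) fun x => x.1.hol o x.2.1) ∧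
    FPRAS (fun x : (G : Reg 3) × {w : Fin G.m → (Fin 3 → Bool) → ℚ≥0 // ∀ v, Balanced (w v)} =>
      x.1.code ++ tables x.2.1) fun x => x.1.hol false x.2.1 :=
  ⟨fpras_graph, fpras_eight, fpras_four, fpras_three⟩

end Vale.Agent.N308H.OldEightVertex
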